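import Vale.Agent.P257.H314.Inf

/-!
# P257 (helper314): from `Cob (Laz / I_∞)` to `Cob Laz` modulo `I_h`

Injectivity and surjectivity on cohomology of maps `Cob (QIinf p) n → X n`, transported to
`Cob Laz n` modulo `I_h` in weights `w < p ^ h - 1`.
-/

universe v u

set_option linter.unusedSectionVars false

namespace Vale.Agent.P257.H314

open Vale.Agent.P251 Vale.Agent.P251.F

variable (p : ℕ) [Fact p.Prime]

/-- the projection `Cob Laz n → Cob (Laz / I_∞) n` -/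
noncomputable def toInf (n : ℕ) : Cob Laz n →+* Cob (QIinf p) n :=
  Cob.mapRing (Ideal.Quotient.mk (Iinf p)) n

variable {p}

theorem toInf_d {n : ℕ} (z : Cob Laz n) : toInf p (n + 1) (Cob.d n z) = Cob.d n (toInf p n z) :=
  Cob.mapRing_d (isLawHom_mkInf p) z

theorem toInf_wt {n : ℕ} {w : ℤ} {z : Cob Laz n} (hz : Cob.IsWt w z) :
    Cob.IsWt w (toInf p n z) := hz.mapRing (isLawHom_mkInf p)

theorem toInf_cup {a b : ℕ} (x : Cob Laz a) (y : Cob Laz b) :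
    toInf p (a + b) (Cob.cup x y) = Cob.cup (toInf p a x) (toInf p b y) :=
  Cob.mapRing_cup (isLawHom_mkInf p) x y

theorem toInf_map {m n : ℕ} (α : Fin (m + 1) → Fin (n + 1)) (z : Cob Laz m) :
    toInf p n (Cob.map α z) = Cob.map α (toInf p m z) := Cob.mapRing_map (isLawHom_mkInf p) α z

theorem toInf_eq_zero_of_mem {h n : ℕ} {z : Cob Laz n} (hz : z ∈ IC p h n) : toInf p n z = 0 :=
  (mapRing_inf_eq_zero_iff z).2 (mem_ICinf_iff.2 ⟨h, hz⟩)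

theorem toInf_eq_zero_iff {h n : ℕ} {w : ℤ} (hw : w < (p : ℤ) ^ h - 1) {z : Cob Laz n}
    (hz : Cob.IsWt w z) : toInf p n z = 0 ↔ z ∈ IC p h n := mapRing_inf_eq_zero_iff_of_lt hw hz

theorem exists_toInf {n : ℕ} {w : ℤ} {z : Cob (QIinf p) n} (hz : Cob.IsWt w z) :
    ∃ z' : Cob Laz n, Cob.IsWt w z' ∧ toInf p n z' = z := by
  obtain ⟨z', h⟩ := exists_lift_wt_inf hz
  exact ⟨z'.1, z'.2, h⟩

variable {h : ℕ} {w : ℤ} (hw : w < (p : ℤ) ^ h - 1)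

include hw

/-- Injectivity in degree `0`. -/
theorem inj_zero_of_inf {X : Type*} [Zero X] (f : Cob (QIinf p) 0 → X)
    (hinj : ∀ z : Cob (QIinf p) 0, Cob.IsWt w z → Cob.d 0 z = 0 → f z = 0 → z = 0)
    {z : Cob Laz 0} (hz : Cob.IsWt w z) (hdz : Cob.d 0 z ∈ IC p h 1) (hf : f (toInf p 0 z) = 0) :
    z ∈ IC p h 0 := by
  rw [← toInf_eq_zero_iff hw hz]
  refine hinj _ (toInf_wt hz) ?_ hf
  rw [← toInf_d]
  exact toInf_eq_zero_of_mem hdz

/-- Injectivity in degree `n + 1`. -/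
theorem inj_of_inf {n : ℕ} {X Y : Type*} (dX : X → Y) (P : X → Prop)
    (f : Cob (QIinf p) (n + 1) → Y)
    (hinj : ∀ z : Cob (QIinf p) (n + 1), Cob.IsWt w z → Cob.d (n + 1) z = 0 →
      ∀ y, P y → dX y = f z → ∃ y' : Cob (QIinf p) n, Cob.IsWt w y' ∧ z = Cob.d n y')
    {z : Cob Laz (n + 1)} (hz : Cob.IsWt w z) (hdz : Cob.d (n + 1) z ∈ IC p h (n + 2))
    {y : X} (hP : P y) (hy : dX y = f (toInf p (n + 1) z)) :
    ∃ y' : Cob Laz n, Cob.IsWt w y' ∧ z - Cob.d n y' ∈ IC p h (n + 1) := by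
  obtain ⟨y', hy', hzy⟩ := hinj _ (toInf_wt hz)
    (by rw [← toInf_d]; exact toInf_eq_zero_of_mem hdz) y hP hy
  obtain ⟨y'', hy'', rfl⟩ := exists_toInf hy'
  refine ⟨y'', hy'', ?_⟩
  rw [← toInf_eq_zero_iff hw ((Cob.wt Laz _ _).sub_mem hz hy''.d), map_sub, hzy, toInf_d, sub_self]

/-- Surjectivity. -/
theorem surj_of_inf {n : ℕ} {z : Cob (QIinf p) n} (hz : Cob.IsWt w z) (hdz : Cob.d n z = 0) :
    ∃ z' : Cob Laz n, Cob.IsWt w z' ∧ Cob.d n z' ∈ IC p h (n + 1) ∧ toInf p n z' = z := by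
  obtain ⟨z', hz', rfl⟩ := exists_toInf hz
  refine ⟨z', hz', ?_, rfl⟩
  rw [← toInf_eq_zero_iff hw hz'.d, toInf_d, hdz]

end Vale.Agent.P257.H314
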