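import Vale.Agent.P257.H314.Stab

/-!
# P257, package ALG-1 (A1-INF): `Laz / I_∞`

`Iinf p = ⨆ h, I_h`, `QIinf p = Laz / Iinf` as a law ring; comparison of `Cob (QI p h)` and
`Cob (QIinf p)` in weights `w < p ^ h - 1`; `StabVan` in terms of `Cob (QIinf p)`.
-/

open CategoryTheory MonoidalCategory Limits Pretriangulated

universe v u

set_option linter.unusedSectionVars false

namespace Vale.Agent.P257.H314

open Vale.Agent.P251 Vale.Agent.P251.F

variable (p : ℕ)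

/-- The ideal `I_∞` of `Laz`. -/
noncomputable def Iinf : Ideal Laz := ⨆ h : ℕ, Laz.I p h

theorem I_le_Iinf (h : ℕ) : Laz.I p h ≤ Iinf p := le_iSup (fun h => Laz.I p h) h

theorem Iinf_vanish_iff {B : Type*} [CommRing B] (x : Laz →+* B) :
    (∀ a ∈ Iinf p, x a = 0) ↔ ∀ h, Ih p h (Laz.univ.map x) = ⊥ := by
  have h1 : (∀ a ∈ Iinf p, x a = 0) ↔ Iinf p ≤ RingHom.ker x := Iff.rfl
  rw [h1, Iinf, iSup_le_iff]
  refine forall_congr' fun h => ?_
  rw [← Laz.I_map, Ideal.map_eq_bot_iff_le_ker]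

/-- The vanishing locus of `I_∞` is the set of laws all of whose `vv p k` vanish. -/
theorem Iinf_vanish_iff_vv {B : Type*} [CommRing B] (x : Laz →+* B) :
    (∀ a ∈ Iinf p, x a = 0) ↔ ∀ k, vv p k (Laz.univ.map x) = 0 := by
  rw [Iinf_vanish_iff]
  constructor
  · intro H k
    have h1 : vv p k (Laz.univ.map x) ∈ Ih p (k + 1) (Laz.univ.map x) := vv_mem_Ih (Nat.lt_succ_self k) _
    rw [H (k + 1)] at h1
    exact h1
  · intro H h
    rw [eq_bot_iff, Ih, Ideal.span_le]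
    rintro _ ⟨i, -, rfl⟩
    exact H i

theorem invariant_Iinf [Fact p.Prime] : LawRing.Invariant (Iinf p) := by
  intro B _ f x hx
  rw [Iinf_vanish_iff] at hx ⊢
  intro h
  have h3 : Laz.univ.map (LawRing.act f x) = f • Laz.univ.map x := LawRing.law_act f x
  rw [h3, Ih_smul, hx]

/-- `Laz / I_∞`. -/
abbrev QIinf : Type := Laz ⧸ Iinf p

noncomputable instance instLawRingQIinf [Fact p.Prime] : LawRing (QIinf p) :=
  LawRing.quotient _ (invariant_Iinf p)

theorem isLawHom_mkInf [Fact p.Prime] : IsLawHom (Ideal.Quotient.mk (Iinf p)) :=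
  IsLawHom.of_epi LawRing.epi_laz rfl

theorem epi_QI [Fact p.Prime] (h : ℕ) : LawRing.Epi (QI p h) :=
  LawRing.epi_quotient LawRing.epi_laz _ (invariant_I p h)

theorem epi_QIinf [Fact p.Prime] : LawRing.Epi (QIinf p) :=
  LawRing.epi_quotient LawRing.epi_laz _ (invariant_Iinf p)

/-- `Laz / I_h → Laz / I_∞`. -/
noncomputable def qmap (h : ℕ) : QI p h →+* QIinf p := Ideal.Quotient.factor (I_le_Iinf p h)

theorem qmap_comp_mk (h : ℕ) :
    (qmap p h).comp (Ideal.Quotient.mk (Laz.I p h)) = Ideal.Quotient.mk (Iinf p) :=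
  Ideal.Quotient.factor_comp_mk (I_le_Iinf p h)

theorem isLawHom_qmap [Fact p.Prime] (h : ℕ) : IsLawHom (qmap p h) := by
  refine IsLawHom.of_epi (epi_QI p h) ?_
  change (Laz.univ.map (Ideal.Quotient.mk (Laz.I p h))).map (qmap p h) =
    Laz.univ.map (Ideal.Quotient.mk (Iinf p))
  rw [Law.map_map, qmap_comp_mk]

/-- The ideal generated by `I_∞` in `Cob Laz n`. -/
noncomputable abbrev ICinf (n : ℕ) : Ideal (Cob Laz n) :=
  (Iinf p).map (MvPolynomial.C : Laz →+* Cob Laz n)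

variable {p}

theorem IC_mono' {h k : ℕ} (hk : h ≤ k) (n : ℕ) : IC p h n ≤ IC p k n := by
  induction k, hk using Nat.le_induction with
  | base => exact le_rfl
  | succ k _ ih => exact ih.trans IC_mono

theorem mem_ICinf_iff {n : ℕ} {z : Cob Laz n} : z ∈ ICinf p n ↔ ∃ h, z ∈ IC p h n := by
  rw [ICinf, Iinf, Ideal.map_iSup]
  exact Submodule.mem_iSup_of_directed _ (directed_of_isDirected_le fun i j hij => IC_mono' hij n)

theorem pow_le_pow_sub {h k : ℕ} [Fact p.Prime] (hk : h ≤ k) : (p : ℤ) ^ h - 1 ≤ (p : ℤ) ^ k - 1 := by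
  have hp : (1 : ℤ) ≤ (p : ℤ) := by exact_mod_cast (Fact.out : p.Prime).one_le
  have := pow_le_pow_right₀ hp hk
  omega

/-- In weights `w < p ^ h - 1` the ideals `I_k`, `k ≥ h`, agree with `I_h`. -/
theorem mem_IC_of_mem_IC [Fact p.Prime] {h k n : ℕ} {w : ℤ} (hk : h ≤ k)
    (hw : w < (p : ℤ) ^ h - 1) {z : Cob Laz n} (hz : Cob.IsWt w z) (h1 : z ∈ IC p k n) :
    z ∈ IC p h n := by
  induction k, hk using Nat.le_induction with
  | base => exact h1
  | succ k hk ih =>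
    refine ih ?_
    obtain ⟨b, hb, hzb⟩ := exists_of_mem_succ hz h1
    have hb0 : b = 0 := eq_zero_of_isWt_neg (by
      have := pow_le_pow_sub (p := p) hk
      omega) hb
    rwa [hb0, zero_mul, sub_zero] at hzb

theorem mem_IC_of_mem_ICinf [Fact p.Prime] {h n : ℕ} {w : ℤ}
    (hw : w < (p : ℤ) ^ h - 1) {z : Cob Laz n} (hz : Cob.IsWt w z) (h1 : z ∈ ICinf p n) :
    z ∈ IC p h n := by
  obtain ⟨k, hk⟩ := mem_ICinf_iff.1 h1
  rcases le_total h k with hhk | hhk
  · exact mem_IC_of_mem_IC hhk hw hz hk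
  · exact IC_mono' hhk n hk

theorem mapRing_inf_eq_zero_iff {n : ℕ} (z : Cob Laz n) :
    Cob.mapRing (Ideal.Quotient.mk (Iinf p)) n z = 0 ↔ z ∈ ICinf p n := by
  rw [Cob.mapRing, ← RingHom.mem_ker, MvPolynomial.ker_map, Ideal.mk_ker]

theorem mapRing_inf_eq_zero_iff_of_lt [Fact p.Prime] {h n : ℕ} {w : ℤ}
    (hw : w < (p : ℤ) ^ h - 1) {z : Cob Laz n} (hz : Cob.IsWt w z) :
    Cob.mapRing (Ideal.Quotient.mk (Iinf p)) n z = 0 ↔ z ∈ IC p h n := by
  rw [mapRing_inf_eq_zero_iff]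
  exact ⟨mem_IC_of_mem_ICinf hw hz, fun h1 => mem_ICinf_iff.2 ⟨h, h1⟩⟩

theorem exists_lift_wt_inf [Fact p.Prime] {n : ℕ} {w : ℤ} {z : Cob (QIinf p) n}
    (hz : Cob.IsWt w z) :
    ∃ z' : Cob.wt Laz n w, Cob.mapRing (Ideal.Quotient.mk (Iinf p)) n z'.1 = z := by
  obtain ⟨y, rfl⟩ := Cob.mapRing_surjective (n := n) (Ideal.Quotient.mk_surjective (I := Iinf p)) z
  refine ⟨⟨Cob.pr Laz n w y, Cob.isWt_pr w y⟩, ?_⟩
  have h1 := Cob.pr_comm (Cob.mapRing (Ideal.Quotient.mk (Iinf p)) n).toAddMonoidHom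
    (fun w x hx => hx.mapRing (isLawHom_mkInf p)) w y
  change Cob.pr (QIinf p) n w (Cob.mapRing _ n y) = Cob.mapRing _ n (Cob.pr Laz n w y) at h1
  rw [← h1, Cob.pr_eq_self hz]

theorem mapRing_qmap_mk {h n : ℕ} (z : Cob Laz n) : Cob.mapRing (qmap p h) n
    (Cob.mapRing (Ideal.Quotient.mk (Laz.I p h)) n z) =
    Cob.mapRing (Ideal.Quotient.mk (Iinf p)) n z := by
  rw [Cob.mapRing, Cob.mapRing, MvPolynomial.map_map, qmap_comp_mk]
  rfl

/-- `Cob (Laz / I_h) → Cob (Laz / I_∞)` is injective in weights `< p ^ h - 1`. -/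
theorem qmap_injective [Fact p.Prime] {h n : ℕ} {w : ℤ} (hw : w < (p : ℤ) ^ h - 1)
    {z : Cob (QI p h) n} (hz : Cob.IsWt w z) (h0 : Cob.mapRing (qmap p h) n z = 0) : z = 0 := by
  obtain ⟨z', rfl⟩ := exists_lift_wt hz
  rw [mapRing_qmap_mk, mapRing_inf_eq_zero_iff_of_lt hw z'.2] at h0
  exact (mapRing_eq_zero_iff _).2 h0

/-- `Cob (Laz / I_h) → Cob (Laz / I_∞)` is surjective. -/
theorem qmap_surjective [Fact p.Prime] (h : ℕ) {n : ℕ} {w : ℤ} {z : Cob (QIinf p) n}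
    (hz : Cob.IsWt w z) :
    ∃ z' : Cob (QI p h) n, Cob.IsWt w z' ∧ Cob.mapRing (qmap p h) n z' = z := by
  obtain ⟨z', rfl⟩ := exists_lift_wt_inf hz
  exact ⟨_, z'.2.mapRing (isLawHom_mkI p h), mapRing_qmap_mk _⟩

variable (p)

/-- `H^s (Cob (Laz / I_∞))_w = 0`. -/
def VanInf [Fact p.Prime] : ℕ → ℤ → Prop
  | 0, w => ∀ c : Cob (QIinf p) 0, Cob.IsWt w c → Cob.d 0 c = 0 → c = 0
  | s + 1, w => ∀ c : Cob (QIinf p) (s + 1), Cob.IsWt w c → Cob.d (s + 1) c = 0 →
      ∃ c' : Cob (QIinf p) s, Cob.IsWt w c' ∧ Cob.d s c' = c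

variable {p}

theorem algVan_iff_vanInf [Fact p.Prime] {h s : ℕ} {w : ℤ} (hw : w < (p : ℤ) ^ h - 1) :
    AlgVan p h s w ↔ VanInf p s w := by
  cases s with
  | zero =>
    rw [algVan_zero_iff]
    constructor
    · intro H c hc hdc
      obtain ⟨z, hz, rfl⟩ := qmap_surjective h hc
      rw [← Cob.mapRing_d (isLawHom_qmap p h)] at hdc
      rw [H z hz (qmap_injective hw hz.d hdc), map_zero]
    · intro H z hz hdz
      refine qmap_injective hw hz (H _ (hz.mapRing (isLawHom_qmap p h)) ?_)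
      rw [← Cob.mapRing_d (isLawHom_qmap p h), hdz, map_zero]
  | succ s =>
    rw [algVan_succ_iff]
    constructor
    · intro H c hc hdc
      obtain ⟨z, hz, rfl⟩ := qmap_surjective h hc
      rw [← Cob.mapRing_d (isLawHom_qmap p h)] at hdc
      obtain ⟨y, hy, hyz⟩ := H z hz (qmap_injective hw hz.d hdc)
      refine ⟨Cob.mapRing (qmap p h) s y, hy.mapRing (isLawHom_qmap p h), ?_⟩
      rw [← Cob.mapRing_d (isLawHom_qmap p h), hyz]
    · intro H z hz hdz
      obtain ⟨c', hc', hcz⟩ := H (Cob.mapRing (qmap p h) (s + 1) z)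
        (hz.mapRing (isLawHom_qmap p h)) (by
          rw [← Cob.mapRing_d (isLawHom_qmap p h), hdz, map_zero])
      obtain ⟨y, hy, rfl⟩ := qmap_surjective h hc'
      refine ⟨y, hy, ?_⟩
      rw [← sub_eq_zero]
      refine qmap_injective hw ((Cob.wt (QI p h) (s + 1) w).sub_mem hy.d hz) ?_
      rw [map_sub, Cob.mapRing_d (isLawHom_qmap p h), hcz, sub_self]

/-- `StabVan` in terms of `Laz / I_∞`. -/
theorem stabVan_iff [Fact p.Prime] {s : ℕ} {W : ℤ} :
    StabVan p s W ↔ VanInf p s (((p : ℤ) - 1) * W) := by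
  constructor
  · intro H
    obtain ⟨h, hh, hw⟩ : ∃ h : ℕ, 1 ≤ h ∧ ((p : ℤ) - 1) * W < (p : ℤ) ^ h - 1 := by
      refine ⟨(((p : ℤ) - 1) * W).toNat + 2, by omega, ?_⟩
      have h1 : (((p : ℤ) - 1) * W).toNat + 2 < p ^ ((((p : ℤ) - 1) * W).toNat + 2) :=
        Nat.lt_pow_self (Fact.out : p.Prime).one_lt
      zify at h1
      omega
    exact (algVan_iff_vanInf hw).1 (H h hh hw)
  · intro H h _ hw
    exact (algVan_iff_vanInf hw).2 H

/-! ### The points of `Laz / I_∞` -/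

section points

variable {B : Type} [CommRing B]

/-- the point of `Laz / I_∞` given by a law with all `vv p k = 0` -/
noncomputable def QIinf.lift (F : Law B) (hF : ∀ k, vv p k F = 0) : QIinf p →+* B :=
  Ideal.Quotient.lift (Iinf p) (Laz.lift F)
    ((Iinf_vanish_iff_vv p _).2 (by simpa only [Laz.univ_map_lift] using hF))

theorem QIinf.law_map_lift [Fact p.Prime] (F : Law B) (hF : ∀ k, vv p k F = 0) :
    (LawRing.law (N := QIinf p)).map (QIinf.lift F hF) = F := by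
  change (Laz.univ.map (Ideal.Quotient.mk (Iinf p))).map (QIinf.lift F hF) = F
  rw [Law.map_map]
  have : (QIinf.lift F hF).comp (Ideal.Quotient.mk (Iinf p)) = Laz.lift F :=
    Ideal.Quotient.lift_comp_mk _ _ _
  rw [this, Laz.univ_map_lift]

theorem QIinf.vv_law [Fact p.Prime] (x : QIinf p →+* B) (k : ℕ) :
    vv p k ((LawRing.law (N := QIinf p)).map x) = 0 := by
  change vv p k ((Laz.univ.map (Ideal.Quotient.mk (Iinf p))).map x) = 0
  rw [Law.map_map]
  refine (Iinf_vanish_iff_vv p (x.comp (Ideal.Quotient.mk (Iinf p)))).1 (fun a ha => ?_) k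
  rw [RingHom.comp_apply, Ideal.Quotient.eq_zero_iff_mem.2 ha, map_zero]

theorem QIinf.hom_ext [Fact p.Prime] {x y : QIinf p →+* B}
    (h : (LawRing.law (N := QIinf p)).map x = (LawRing.law (N := QIinf p)).map y) : x = y :=
  epi_QIinf p _ x y h

theorem QIinf.lift_law [Fact p.Prime] (x : QIinf p →+* B) :
    QIinf.lift ((LawRing.law (N := QIinf p)).map x) (QIinf.vv_law x) = x :=
  QIinf.hom_ext (QIinf.law_map_lift _ _)

theorem QIinf.cast_p [Fact p.Prime] (x : QIinf p →+* B) : (p : B) = 0 := by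
  have := QIinf.vv_law x 0
  rwa [vv_zero] at this

/-- the coordinate changes act on the points as on the laws -/
theorem QIinf.act_eq [Fact p.Prime] (f : InvSeries B) (x : QIinf p →+* B) :
    (LawRing.law (N := QIinf p)).map (LawRing.act f x) =
      f • (LawRing.law (N := QIinf p)).map x :=
  LawRing.law_act f x

end points

end Vale.Agent.P257.H314
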