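import Vale.Agent.P257.H314.Assemble

/-!
# P257, package TOP-1: the right action of `S/p` on the Smith-Toda complexes
-/

open CategoryTheory MonoidalCategory Limits Pretriangulated MonObj

universe v u

set_option linter.unusedSectionVars false

namespace Vale.Agent.P257.H314

open Vale.Agent.P251 Vale.Agent.P251.T Vale.Agent.P251.M Vale.Agent.P251.S Vale.Agent.P251.F

variable {T : Type u} [Category.{v} T] [Preadditive T] [HasZeroObject T]
    [HasShift T ℤ] [∀ n : ℤ, (shiftFunctor T n).Additive] [Pretriangulated T]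
    [MonoidalCategory T] [SymmetricCategory T] [TensorTriangulated T] [HasCoproducts.{0} T]

section

variable {V C : T} {i : 𝟙_ T ⟶ V} {iC : 𝟙_ T ⟶ C}

/-- A unital product `V ⊗ V ⟶ V` and a map `C ⟶ V` under the unit give an action `V ⊗ C ⟶ V`. -/
def UProd.act (m : UProd V i) (g : C ⟶ V) : V ⊗ C ⟶ V := (V ◁ g) ≫ m.m

theorem UProd.unit_act (m : UProd V i) {g : C ⟶ V} (hg : iC ≫ g = i) :
    (V ◁ iC) ≫ m.act g = (ρ_ V).hom := by
  rw [UProd.act, ← MonoidalCategory.whiskerLeft_comp_assoc, hg, m.right_unit]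

/-- the left action -/
def UProd.lact (m : UProd V i) (g : C ⟶ V) : C ⊗ V ⟶ V := (g ▷ V) ≫ m.m

theorem UProd.unit_lact (m : UProd V i) {g : C ⟶ V} (hg : iC ≫ g = i) :
    (iC ▷ V) ≫ m.lact g = (λ_ V).hom := by
  rw [UProd.lact, ← MonoidalCategory.comp_whiskerRight_assoc, hg, m.left_unit]

/-- If `q` kills the unit of a unital product, it kills the object. -/
theorem UProd.zsmul_id (m : UProd V i) {q : ℤ} (hq : q • i = 0) : q • 𝟙 V = 0 := by
  have h1 : q • 𝟙 V = (ρ_ V).inv ≫ (V ◁ (q • i)) ≫ m.m := by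
    have h2 : V ◁ (q • i) = q • (V ◁ i) := by
      change (tensorLeft V).map (q • i) = q • (tensorLeft V).map i
      exact Functor.map_zsmul _
    rw [h2, Preadditive.zsmul_comp, Preadditive.comp_zsmul, m.right_unit, Iso.inv_hom_id]
  rw [h1, hq]
  simp

end

variable {D : I.MUData T} {p : ℕ} {C : T} {iC : 𝟙_ T ⟶ C} {h : ℕ} {V : T} {i : 𝟙_ T ⟶ V}

/-- The action of `S/p` on the Smith-Toda complexes. -/
theorem IsST.exists_act (H : IsST D p iC h i) (m : UProd V i) :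
    ∃ a : V ⊗ C ⟶ V, (V ◁ iC) ≫ a = (ρ_ V).hom := by
  obtain ⟨g, hg⟩ := H.fact
  exact ⟨m.act g, m.unit_act hg⟩

theorem IsST.zsmul_i (H : IsST D p iC h i) {δ : C ⟶ (𝟙_ T)⟦(1 : ℤ)⟧}
    (hC : Triangle.mk ((p : ℤ) • 𝟙 (𝟙_ T)) iC δ ∈ distTriang T) : (p : ℤ) • i = 0 := by
  obtain ⟨g, hg⟩ := H.fact
  have h1 : ((p : ℤ) • 𝟙 (𝟙_ T)) ≫ iC = 0 := comp_distTriang_mor_zero₁₂ _ hC
  rw [← hg, ← Category.id_comp (iC ≫ g), ← Preadditive.zsmul_comp, ← Category.assoc, h1, zero_comp]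

/-- `p = 0` on the Smith-Toda complexes with a unital product. -/
theorem IsST.zsmul_id (H : IsST D p iC h i) (m : UProd V i) {δ : C ⟶ (𝟙_ T)⟦(1 : ℤ)⟧}
    (hC : Triangle.mk ((p : ℤ) • 𝟙 (𝟙_ T)) iC δ ∈ distTriang T) : (p : ℤ) • 𝟙 V = 0 :=
  m.zsmul_id (H.zsmul_i hC)

end Vale.Agent.P257.H314
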