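import Vale.Agent.P257.H314.E2

/-!
# P257, package TOP-1: the inductive construction of the Smith-Toda complexes

`IsST D p iC h i` (`i : 𝟙 ⟶ V`, `iC : 𝟙 ⟶ S/p`): `V` is a Smith-Toda complex `V(h-1)`: its
`MU`-homology is `Laz / I_h`, it has cells in dimensions `∑_{a ∈ A} (2 p^a - 1)`, `A ⊆ {0..h-1}`, and
`i` factors through `iC`.

* `ProdVan p h` : the vanishing statements which imply that `V(h-1)` has a unital product;
* `LiftVan p h` : the vanishing statements which imply that `v_h` lifts to `π_* V(h-1)`;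
* `IsST.exists_uprod`, `IsST.exists_det_v`, `IsST.next`.
-/

open CategoryTheory MonoidalCategory Limits Pretriangulated MonObj

universe v u

set_option linter.unusedSectionVars false

namespace Vale.Agent.P257.H314

open Vale.Agent.P251 Vale.Agent.P251.T Vale.Agent.P251.M Vale.Agent.P251.S Vale.Agent.P251.F
open Vale.Agent.P251.M.EvenSpheres

/-- the dimension `∑_{a ∈ A} (2 p^a - 1)` -/
def dA (p : ℕ) (A : Finset ℕ) : ℤ := ∑ a ∈ A, (2 * (p : ℤ) ^ a - 1)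

/-- the dimensions of the cells of `V(h-1)` -/
def dims (p h : ℕ) : Set ℤ := {d | ∃ A : Finset ℕ, A ⊆ Finset.range h ∧ d = dA p A}

/-- the dimensions of the cells of `V(h-1)`, without the bottom cell -/
def dimsPos (p h : ℕ) : Set ℤ :=
  {d | ∃ A : Finset ℕ, A ⊆ Finset.range h ∧ A.Nonempty ∧ d = dA p A}

/-- The vanishing statements for the unital product of `V(h-1)`. -/
def ProdVan (p h : ℕ) : Prop :=
  ∀ A B : Finset ℕ, A ⊆ Finset.range h → B ⊆ Finset.range h → A.Nonempty → B.Nonempty →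
    ∀ (s : ℕ) (w : ℤ), 2 * w = dA p A + dA p B - 1 + s → AlgVan p h s w

/-- The vanishing statements for the lift of `v_h` to `V(h-1)`. -/
def LiftVan (p h : ℕ) : Prop :=
  ∀ (s : ℕ) (w : ℤ), 2 * w = 2 * ((p : ℤ) ^ h - 1) - 1 + ((s + 2 : ℕ) : ℤ) →
    AlgVan p h (s + 2) w

lemma dims_nonneg {p h : ℕ} (hp : 1 ≤ p) {d : ℤ} (hd : d ∈ dims p h) : 0 ≤ d := by
  obtain ⟨A, -, rfl⟩ := hd
  refine Finset.sum_nonneg fun a _ => ?_
  have : (1 : ℤ) ≤ (p : ℤ) ^ a := one_le_pow₀ (by exact_mod_cast hp)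
  omega

lemma dims_succ {p h : ℕ} {d : ℤ} (hd : d ∈ dims p h) :
    d + (2 * (p : ℤ) ^ h - 1) ∈ dimsPos p (h + 1) := by
  obtain ⟨A, hA, rfl⟩ := hd
  have h1 : h ∉ A := fun h2 => by simpa using hA h2
  refine ⟨insert h A, ?_, Finset.insert_nonempty _ _, ?_⟩
  · intro a ha
    rcases Finset.mem_insert.1 ha with rfl | ha
    · simp
    · have := hA ha
      simp only [Finset.mem_range] at this ⊢
      omega
  · rw [dA, dA, Finset.sum_insert h1, add_comm]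

lemma dimsPos_subset (p h : ℕ) : dimsPos p h ⊆ dims p h := fun _ ⟨A, h1, _, h3⟩ => ⟨A, h1, h3⟩

lemma dims_mono (p h : ℕ) : dims p h ⊆ dims p (h + 1) := fun _ ⟨A, h1, h3⟩ =>
  ⟨A, h1.trans (Finset.range_subset_range.2 (Nat.le_succ h)), h3⟩

lemma dimsPos_mono (p h : ℕ) : dimsPos p h ⊆ dimsPos p (h + 1) := fun _ ⟨A, h1, h2, h3⟩ =>
  ⟨A, h1.trans (Finset.range_subset_range.2 (Nat.le_succ h)), h2, h3⟩

/-- `v_h` is invariant modulo `I_h`. -/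
theorem d_v_mem (p : ℕ) [Fact p.Prime] (h : ℕ) : Cob.d 0 (vw p h 0).1 ∈ IC p h 1 := by
  have hC : IC p h 1 = Ih p h (Laz.univ.map (MvPolynomial.C : Laz →+* Cob Laz 1)) :=
    Laz.I_map p h _
  have h0 : ∀ α : Fin 1 → Fin 2, Cob.map α (vw p h 0).1 =
      vv p h ((Cob.univ Laz 1).g (α 0) • Laz.univ.map (MvPolynomial.C : Laz →+* Cob Laz 1)) := by
    intro α
    change Cob.map α (MvPolynomial.C (Laz.v p h)) = _
    rw [Cob.map, Cob.ev_C, Chain.res_pt, Laz.map_v]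
    congr 1
    exact LawRing.law_act ((Cob.univ Laz 1).g (α 0)) (Cob.univ Laz 1).pt
  have hc : ((Cob.univ Laz 1).g 1).c 0 = 1 := (Cob.univ Laz 1).strict 1
  have h1 := vv_smul_sub_mem p h (Laz.univ.map (MvPolynomial.C : Laz →+* Cob Laz 1))
    ((Cob.univ Laz 1).g 1)
  rw [hc, one_pow, _root_.mul_one, _root_.one_mul, ← hC] at h1
  rw [Cob.d_apply, Fin.sum_univ_two, h0, h0]
  have e0 : (Fin.succAbove (0 : Fin 2) : Fin 1 → Fin 2) 0 = 1 := rfl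
  have e1 : (Fin.succAbove (1 : Fin 2) : Fin 1 → Fin 2) 0 = 0 := rfl
  rw [e0, e1, Cob.univ_g_zero, one_smul]
  simpa [sub_eq_add_neg] using h1

variable {T : Type u} [Category.{v} T] [Preadditive T] [HasZeroObject T]
    [HasShift T ℤ] [∀ n : ℤ, (shiftFunctor T n).Additive] [Pretriangulated T]
    [MonoidalCategory T] [SymmetricCategory T] [TensorTriangulated T] [HasCoproducts.{0} T]
    (D : I.MUData T)

/-- Towers of cofibrations `S^{2(p^k - 1)} ⊗ V(k-1) ⟶ V(k-1) ⟶ V(k)`, `1 ≤ k < h`, where the first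
map restricts to a class `x` detected by `v_k`, and `V(0) = S/p`. -/
inductive STow (p : ℕ) : ∀ (_ : ℕ) {V : T}, (𝟙_ T ⟶ V) → Prop
  | one {C : T} {iC : 𝟙_ T ⟶ C} {δ : C ⟶ (𝟙_ T)⟦(1 : ℤ)⟧}
      (hC : Triangle.mk ((p : ℤ) • 𝟙 (𝟙_ T)) iC δ ∈ distTriang T) : STow p 1 iC
  | succ {h : ℕ} {V V' : T} {i : 𝟙_ T ⟶ V} (H : STow p h i)
      (x : (stdEven T).S ((p ^ h : ℤ) - 1) ⟶ V) (hx : Det D i x (vw p h 0))
      (f : (stdEven T).S ((p ^ h : ℤ) - 1) ⊗ V ⟶ V)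
      (hf : ((stdEven T).S ((p ^ h : ℤ) - 1) ◁ i) ≫ f = (ρ_ _).hom ≫ x) (j : V ⟶ V')
      (δ : V' ⟶ ((stdEven T).S ((p ^ h : ℤ) - 1) ⊗ V)⟦(1 : ℤ)⟧)
      (hΔ : Triangle.mk f j δ ∈ distTriang T) : STow p (h + 1) (i ≫ j)

/-- `V` is a Smith-Toda complex `V(h-1)`. -/
structure IsST (p : ℕ) {C : T} (iC : 𝟙_ T ⟶ C) (h : ℕ) {V : T} (i : 𝟙_ T ⟶ V) : Prop where
  cyc : Cyc D p h i
  fin : FinCell T (dims p h) V
  bar : ∃ (W : T) (π : V ⟶ W) (δ : W ⟶ (𝟙_ T)⟦(1 : ℤ)⟧), Triangle.mk i π δ ∈ distTriang T ∧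
    FinCell T (dimsPos p h) W
  fact : ∃ g : C ⟶ V, iC ≫ g = i
  tow : STow D p h i

variable {D} {p : ℕ} [Fact p.Prime]

/-- `S/p` is a Smith-Toda complex `V(0)`. -/
theorem isST_one (hp : p ≠ 2) {C : T} {iC : 𝟙_ T ⟶ C}
    {δ : C ⟶ (𝟙_ T)⟦(1 : ℤ)⟧} (hC : Triangle.mk ((p : ℤ) • 𝟙 (𝟙_ T)) iC δ ∈ distTriang T) :
    IsST D p iC 1 iC := by
  have h1 : (1 : ℤ) ∈ dimsPos p 1 := ⟨{0}, by simp, by simp, by simp [dA]⟩
  have h0 : (0 : ℤ) ∈ dims p 1 := ⟨∅, by simp, by simp [dA]⟩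
  refine ⟨cyc_modP D hp hC, ?_, ⟨_, δ, _, rot_of_distTriang _ hC, FinCell.sphere 1 h1⟩,
    ⟨𝟙 C, Category.comp_id _⟩, STow.one hC⟩
  exact FinCell.ext₃ (S := {0}) _ hC (FinCell.unit h0) (FinCell.unit rfl) (by
    rintro _ rfl
    exact dimsPos_subset p 1 h1)

variable [MonoidalClosed T] [IsTriangulated T] [HasProducts.{0} T] [StableCat T]
  {C : T} {iC : 𝟙_ T ⟶ C} {h : ℕ} {V : T} {i : 𝟙_ T ⟶ V} (H : IsST D p iC h i)

include H

theorem IsST.bigCell : BigCell T 0 V :=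
  H.fin.bigCell 0 fun _ hd => dims_nonneg (Fact.out : p.Prime).one_le hd

/-- The unital product of `V(h-1)`. -/
theorem IsST.exists_uprod (hA : ProdVan p h) : Nonempty (UProd V i) := by
  obtain ⟨W, π, δ, hΔ, hW⟩ := H.bar
  refine H314.exists_uprod hΔ fun f => ?_
  have h1 : FinCell T {d | ∃ A B : Finset ℕ, (A ⊆ Finset.range h ∧ A.Nonempty) ∧
      (B ⊆ Finset.range h ∧ B.Nonempty) ∧ d = dA p A + dA p B} (W ⊗ W) := by
    refine hW.tensor hW ?_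
    rintro _ ⟨A, hA1, hA2, rfl⟩ _ ⟨B, hB1, hB2, rfl⟩
    exact ⟨A, B, ⟨hA1, hA2⟩, ⟨hB1, hB2⟩, rfl⟩
  refine h1.eq_zero ?_ f
  rintro _ ⟨A, B, ⟨hA1, hA2⟩, ⟨hB1, hB2⟩, rfl⟩ g
  exact eq_zero_of_shift (dA p A + dA p B - 1) 1 _ (by ring)
    (fun g => H.cyc.pi_eq_zero H.bigCell (hA A B hA1 hB1 hA2 hB2) g) g

/-- The lift of `v_h`. -/
theorem IsST.exists_det_v (hA : LiftVan p h) :
    ∃ x : (stdEven T).S ((p ^ h : ℤ) - 1) ⟶ V, Det D i x (vw p h 0) :=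
  H.cyc.exists_det H.bigCell (vw p h 0) (d_v_mem p h) hA

/-- The next Smith-Toda complex. -/
theorem IsST.next (m : UProd V i) {x : (stdEven T).S ((p ^ h : ℤ) - 1) ⟶ V}
    (hx : Det D i x (vw p h 0)) : ∃ (V' : T) (i' : 𝟙_ T ⟶ V'), IsST D p iC (h + 1) i' := by
  have hf : ((stdEven T).S ((p ^ h : ℤ) - 1) ◁ i) ≫ (x ▷ V) ≫ m.m = (ρ_ _).hom ≫ x := by
    rw [whisker_exchange_assoc, m.right_unit, rightUnitor_naturality]
  obtain ⟨V', j, δ, hΔ⟩ := distinguished_cocone_triangle ((x ▷ V) ≫ m.m)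
  obtain ⟨W, π, δW, hW, hWf⟩ := H.bar
  obtain ⟨W', π', δW', hW'⟩ := distinguished_cocone_triangle (i ≫ j)
  obtain ⟨g, hg⟩ := H.fact
  -- cells of `(S ⊗ V)⟦1⟧`
  have hS : FinCell T {2 * ((p ^ h : ℤ) - 1)} ((stdEven T).S ((p ^ h : ℤ) - 1)) :=
    FinCell.of_iso (sI T _).symm (FinCell.sphere _ rfl)
  have hSV : FinCell T {d | ∃ e ∈ dims p h, d = 2 * ((p ^ h : ℤ) - 1) + e}
      ((stdEven T).S ((p ^ h : ℤ) - 1) ⊗ V) := hS.tensor H.fin (by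
    rintro _ rfl e he
    exact ⟨e, he, rfl⟩)
  have hSV1 : FinCell T (dimsPos p (h + 1)) (((stdEven T).S ((p ^ h : ℤ) - 1) ⊗ V)⟦(1 : ℤ)⟧) :=
    hSV.shift 1 (by
      rintro _ ⟨e, he, rfl⟩
      have := dims_succ he
      convert this using 1
      ring)
  refine ⟨V', i ≫ j, H.cyc.step rfl hx hf hΔ, ?_, ?_, ⟨g ≫ j, by rw [← Category.assoc, hg]⟩,
    STow.succ H.tow x hx _ hf j δ hΔ⟩
  · exact FinCell.ext _ (rot_of_distTriang _ hΔ) (H.fin.mono (dims_mono p h))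
      (hSV1.mono (dimsPos_subset p (h + 1)))
  · refine ⟨W', π', δW', hW', ?_⟩
    have O := (Triangulated.someOctahedron rfl hW (rot_of_distTriang _ hΔ) hW').mem
    exact FinCell.ext _ O (hWf.mono (dimsPos_mono p h)) hSV1

omit H in
/-- **Existence of `V(3)`** from the vanishing statements. -/
theorem exists_V3 (hp : p ≠ 2) {δ : C ⟶ (𝟙_ T)⟦(1 : ℤ)⟧}
    (hC : Triangle.mk ((p : ℤ) • 𝟙 (𝟙_ T)) iC δ ∈ distTriang T)
    (hP : ∀ h, 1 ≤ h → h ≤ 3 → ProdVan p h) (hL : ∀ h, 1 ≤ h → h ≤ 3 → LiftVan p h) :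
    ∃ (V : T) (i : 𝟙_ T ⟶ V), IsST D p iC 4 i := by
  obtain ⟨V₁, i₁, H₁⟩ : ∃ (V : T) (i : 𝟙_ T ⟶ V), IsST D p iC 1 i :=
    ⟨C, iC, isST_one (D := D) hp hC⟩
  obtain ⟨m₁⟩ := H₁.exists_uprod (hP 1 (by norm_num) (by norm_num))
  obtain ⟨x₁, hx₁⟩ := H₁.exists_det_v (hL 1 (by norm_num) (by norm_num))
  obtain ⟨V₂, i₂, H₂⟩ := H₁.next m₁ hx₁
  obtain ⟨m₂⟩ := H₂.exists_uprod (hP 2 (by norm_num) (by norm_num))
  obtain ⟨x₂, hx₂⟩ := H₂.exists_det_v (hL 2 (by norm_num) (by norm_num))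
  obtain ⟨V₃, i₃, H₃⟩ := H₂.next m₂ hx₂
  obtain ⟨m₃⟩ := H₃.exists_uprod (hP 3 (by norm_num) (by norm_num))
  obtain ⟨x₃, hx₃⟩ := H₃.exists_det_v (hL 3 (by norm_num) (by norm_num))
  exact H₃.next m₃ hx₃

end Vale.Agent.P257.H314
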