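import Vale.Agent.P251.F.LawHom

/-!
# P257 (helper314): the Leibniz rule for the cup product of `Cob N`
-/

namespace Vale.Agent.P257.H314

open Vale.Agent.P251 Vale.Agent.P251.F

variable {N : Type} [CommRing N] [LawRing N]

/-- The inclusion of the first `a + 2` vertices. -/
def frontA (a b : ℕ) : Fin (a + 1 + 1) → Fin (a + b + 1 + 1) := fun i => ⟨i, by omega⟩

/-- The inclusion of the last `b + 1` vertices. -/
def backA (a b : ℕ) : Fin (b + 1) → Fin (a + b + 1 + 1) := fun i => ⟨a + 1 + i, by omega⟩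

/-- The inclusion of the last `b + 2` vertices. -/
def backB (a b : ℕ) : Fin (b + 1 + 1) → Fin (a + b + 1 + 1) := fun i => ⟨a + i, by omega⟩

private def fX (a b j : ℕ) : Fin (a + 1) → Fin (a + b + 1 + 1) := fun i =>
  if (i : ℕ) < j then ⟨i, by omega⟩ else ⟨i + 1, by omega⟩

private def fY (a b j : ℕ) : Fin (b + 1) → Fin (a + b + 1 + 1) := fun i =>
  if a + (i : ℕ) < j then ⟨a + i, by omega⟩ else ⟨a + i + 1, by omega⟩

private lemma fY_low (a b : ℕ) {j : ℕ} (hj : j ≤ a) : fY a b j = fY a b a := by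
  funext i
  rw [fY, fY, if_neg (by omega), if_neg (by omega)]

private lemma fX_high (a b : ℕ) {j : ℕ} (hj : a + 1 ≤ j) : fX a b j = fX a b (a + 1) := by
  funext i
  rw [fX, fX, if_pos (by omega), if_pos (by omega)]

private lemma succAbove_val {n : ℕ} (j : Fin (n + 1)) (i : Fin n) :
    ((j.succAbove i : Fin (n + 1)) : ℕ) = if (i : ℕ) < (j : ℕ) then (i : ℕ) else i + 1 := by
  simp only [Fin.succAbove, Fin.lt_def, Fin.val_castSucc]
  split_ifs <;> simp

private lemma comp1 (a b : ℕ) (j : Fin (a + b + 2)) :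
    j.succAbove ∘ Cob.front a b = fX a b j := by
  funext i
  apply Fin.ext
  simp only [Function.comp_apply, Cob.front, succAbove_val, fX]
  split_ifs <;> rfl

private lemma comp2 (a b : ℕ) (j : Fin (a + b + 2)) :
    j.succAbove ∘ Cob.back a b = fY a b j := by
  funext i
  apply Fin.ext
  simp only [Function.comp_apply, Cob.back, succAbove_val, fY]
  split_ifs <;> rfl

private lemma comp3 (a b : ℕ) (j : Fin (a + 2)) :
    frontA a b ∘ j.succAbove = fX a b j := by
  funext i
  apply Fin.ext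
  simp only [Function.comp_apply, frontA, succAbove_val, fX]
  split_ifs <;> rfl

private lemma comp4 (a b : ℕ) : backA a b = fY a b a := by
  funext i
  apply Fin.ext
  simp only [backA, fY]
  rw [if_neg (by omega)]
  simp only
  omega

private lemma comp5 (a b : ℕ) (j : Fin (b + 2)) :
    backB a b ∘ j.succAbove = fY a b (a + j) := by
  funext i
  apply Fin.ext
  simp only [Function.comp_apply, backB, succAbove_val, fY]
  split_ifs <;> simp only <;> omega

private lemma front_succ (a b : ℕ) : Cob.front a (b + 1) = fX a b (a + 1) := by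
  funext i
  apply Fin.ext
  simp only [Cob.front, fX]
  rw [if_pos (by omega)]

private lemma d1 {a b : ℕ} (x : Cob N a) (y : Cob N b) :
    Cob.d (a + b) (Cob.cup x y) = ∑ j ∈ Finset.range (a + b + 2),
      ((-1 : ℤ) ^ j) • (Cob.map (fX a b j) x * Cob.map (fY a b j) y) := by
  rw [Cob.d_apply, ← Fin.sum_univ_eq_sum_range (fun j => ((-1 : ℤ) ^ j) •
    (Cob.map (fX a b j) x * Cob.map (fY a b j) y))]
  refine Finset.sum_congr rfl fun j _ => ?_
  rw [Cob.cup, map_mul, Cob.map_map, Cob.map_map, comp1, comp2]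

private lemma d2 {a : ℕ} (b : ℕ) (x : Cob N a) :
    Cob.map (frontA a b) (Cob.d a x) = ∑ j ∈ Finset.range (a + 2),
      ((-1 : ℤ) ^ j) • Cob.map (fX a b j) x := by
  rw [Cob.d_apply, map_sum, ← Fin.sum_univ_eq_sum_range (fun j => ((-1 : ℤ) ^ j) •
    Cob.map (fX a b j) x)]
  refine Finset.sum_congr rfl fun j _ => ?_
  rw [map_zsmul, Cob.map_map, comp3]

private lemma d3 (a : ℕ) {b : ℕ} (y : Cob N b) :
    Cob.map (backB a b) (Cob.d b y) = ∑ k ∈ Finset.range (b + 2),
      ((-1 : ℤ) ^ k) • Cob.map (fY a b (a + k)) y := by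
  rw [Cob.d_apply, map_sum, ← Fin.sum_univ_eq_sum_range (fun k => ((-1 : ℤ) ^ k) •
    Cob.map (fY a b (a + k)) y)]
  refine Finset.sum_congr rfl fun j _ => ?_
  rw [map_zsmul, Cob.map_map, comp5]

private lemma sum_aux {R : Type*} [CommRing R] (a b : ℕ) (X Y : ℕ → R)
    (hY : ∀ j, j ≤ a → Y j = Y a) (hX : ∀ j, a + 1 ≤ j → X j = X (a + 1)) :
    ∑ j ∈ Finset.range (a + b + 2), ((-1 : ℤ) ^ j) • (X j * Y j) =
      (∑ j ∈ Finset.range (a + 2), ((-1 : ℤ) ^ j) • X j) * Y a +
      ((-1 : ℤ) ^ a) • (X (a + 1) * ∑ k ∈ Finset.range (b + 2), ((-1 : ℤ) ^ k) • Y (a + k)) := by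
  rw [show a + b + 2 = (a + 1) + (b + 1) by ring, Finset.sum_range_add,
    Finset.sum_range_succ _ (a + 1), Finset.sum_range_succ' _ (b + 1)]
  have e5 : ∑ j ∈ Finset.range (a + 1), ((-1 : ℤ) ^ j) • (X j * Y j) =
      (∑ j ∈ Finset.range (a + 1), ((-1 : ℤ) ^ j) • X j) * Y a := by
    rw [Finset.sum_mul]
    refine Finset.sum_congr rfl fun j hj => ?_
    rw [Finset.mem_range] at hj
    rw [hY j (by omega), smul_mul_assoc]
  have e6 : ∑ k ∈ Finset.range (b + 1), ((-1 : ℤ) ^ (a + 1 + k)) •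
      (X (a + 1 + k) * Y (a + 1 + k)) =
      ((-1 : ℤ) ^ a) • (X (a + 1) * ∑ k ∈ Finset.range (b + 1), ((-1 : ℤ) ^ (k + 1)) •
        Y (a + (k + 1))) := by
    rw [Finset.mul_sum, Finset.smul_sum]
    refine Finset.sum_congr rfl fun k hk => ?_
    rw [hX _ (show a + 1 ≤ a + 1 + k by omega), mul_smul_comm, smul_smul, ← pow_add,
      show a + 1 + k = a + (k + 1) by ring]
  rw [e5, e6, add_mul, mul_add, smul_add, smul_mul_assoc, pow_zero, one_smul, add_zero, pow_succ]
  simp only [mul_neg, mul_one, neg_smul]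
  abel

/-- the cup product with a cochain of degree `b + 1` -/
theorem cup_succ_eq {a b : ℕ} (x : Cob N a) (z : Cob N (b + 1)) :
    (Cob.cup (a := a) (b := b + 1) x z : Cob N (a + b + 1)) =
      Cob.map (Cob.front a (b + 1)) x * Cob.map (backB a b) z := rfl

/-- **Leibniz rule**. -/
theorem d_cup {a b : ℕ} (x : Cob N a) (y : Cob N b) :
    Cob.d (a + b) (Cob.cup x y) = Cob.map (frontA a b) (Cob.d a x) * Cob.map (backA a b) y +
      ((-1 : ℤ) ^ a) • Cob.cup (a := a) (b := b + 1) x (Cob.d b y) := by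
  rw [d1, d2, cup_succ_eq, d3, comp4, front_succ]
  exact sum_aux a b (fun j => Cob.map (fX a b j) x) (fun j => Cob.map (fY a b j) y)
    (fun j hj => by simp only [fY_low a b hj]) (fun j hj => by simp only [fX_high a b hj])

theorem d_cup_eq_zero {a b : ℕ} {x : Cob N a} {y : Cob N b} (hx : Cob.d a x = 0)
    (hy : Cob.d b y = 0) : Cob.d (a + b) (Cob.cup x y) = 0 := by
  rw [d_cup, hx, hy, map_zero, zero_mul, zero_add, Cob.cup, map_zero, mul_zero, smul_zero]

end Vale.Agent.P257.H314
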