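import Vale.Agent.P251.S.TowerR

/-!
# P257, package TOP-1: unital products by obstruction theory

If `𝟙 -η→ V -π→ W` is a cofibre sequence and `[W ⊗ W, V⟦1⟧] = 0` then `V` has a product
`m : V ⊗ V ⟶ V` with two-sided unit `η`.
-/

open CategoryTheory MonoidalCategory Limits Pretriangulated

universe v u

set_option linter.unusedSectionVars false

namespace Vale.Agent.P257.H314

open Vale.Agent.P251.T Vale.Agent.P251.S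

section Tri

variable {T : Type u} [Category.{v} T] [Preadditive T] [HasZeroObject T]
    [HasShift T ℤ] [∀ n : ℤ, (shiftFunctor T n).Additive] [Pretriangulated T]

/-- Extension over the cofibre. -/
lemma exists_extend (Δ : Triangle T) (hΔ : Δ ∈ distTriang T) {X : T} (f : Δ.obj₁ ⟶ X)
    (h : Δ.mor₃ ≫ f⟦(1 : ℤ)⟧' = 0) : ∃ g : Δ.obj₂ ⟶ X, Δ.mor₁ ≫ g = f := by
  obtain ⟨g, hg⟩ : ∃ g : Δ.obj₂⟦(1 : ℤ)⟧ ⟶ X⟦(1 : ℤ)⟧,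
      f⟦(1 : ℤ)⟧' = (-(Δ.mor₁⟦(1 : ℤ)⟧')) ≫ g := Triangle.yoneda_exact₂ _
    (rot_of_distTriang _ (rot_of_distTriang _ hΔ)) (X := X⟦(1 : ℤ)⟧) (f⟦(1 : ℤ)⟧') h
  obtain ⟨g', rfl⟩ := (shiftFunctor T (1 : ℤ)).map_surjective g
  refine ⟨-g', (shiftFunctor T (1 : ℤ)).map_injective ?_⟩
  rw [hg, Preadditive.comp_neg, Functor.map_neg, Functor.map_comp, Preadditive.neg_comp]

end Tri

variable {T : Type u} [Category.{v} T] [Preadditive T] [HasZeroObject T]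
    [HasShift T ℤ] [∀ n : ℤ, (shiftFunctor T n).Additive] [Pretriangulated T]
    [MonoidalCategory T] [SymmetricCategory T] [TensorTriangulated T]

/-- A unital product. -/
structure UProd (V : T) (η : 𝟙_ T ⟶ V) where
  /-- the product -/
  m : V ⊗ V ⟶ V
  right_unit : (V ◁ η) ≫ m = (ρ_ V).hom
  left_unit : (η ▷ V) ≫ m = (λ_ V).hom

attribute [reassoc] UProd.right_unit UProd.left_unit

/-- The obstruction theory for unital products. -/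
theorem exists_uprod {V W : T} {η : 𝟙_ T ⟶ V} {π : V ⟶ W} {δ : W ⟶ (𝟙_ T)⟦(1 : ℤ)⟧}
    (hΔ : Triangle.mk η π δ ∈ distTriang T)
    (hob : ∀ f : W ⊗ W ⟶ V⟦(1 : ℤ)⟧, f = 0) : Nonempty (UProd V η) := by
  have hηπ : η ≫ π = 0 := comp_distTriang_mor_zero₁₂ _ hΔ
  have hδη : δ ≫ η⟦(1 : ℤ)⟧' = 0 := comp_distTriang_mor_zero₃₁ _ hΔ
  -- the triangle `V ⊗ 𝟙 → V ⊗ V → V ⊗ W`
  have hL := dist_whiskerLeft V hΔ
  -- the triangle `𝟙 ⊗ W → V ⊗ W → W ⊗ W`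
  have hR := dist_whiskerRight W hΔ
  -- Step 1: the connecting map of the first triangle vanishes
  have h1 : (η ▷ W) ≫ (V ◁ δ) ≫ (csh V 1 (𝟙_ T)).hom ≫ ((ρ_ V).hom)⟦(1 : ℤ)⟧' = 0 := by
    have e1 : (η ▷ W) ≫ (V ◁ δ) = (𝟙_ T ◁ δ) ≫ (η ▷ ((𝟙_ T)⟦(1 : ℤ)⟧)) :=
      (whisker_exchange η δ).symm
    have e2 := csh_tlMap η 1 (𝟙_ T)
    have e3 : (η ▷ 𝟙_ T) ≫ (ρ_ V).hom = (λ_ (𝟙_ T)).hom ≫ η := by
      rw [rightUnitor_naturality, unitors_equal]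
    rw [reassoc_of% e1, reassoc_of% e2.symm, ← Functor.map_comp, e3, Functor.map_comp,
      csh_leftUnitor_assoc, leftUnitor_naturality_assoc, hδη, comp_zero]
  obtain ⟨g, hg⟩ : ∃ g : W ⊗ W ⟶ V⟦(1 : ℤ)⟧,
      (V ◁ δ) ≫ (csh V 1 (𝟙_ T)).hom ≫ ((ρ_ V).hom)⟦(1 : ℤ)⟧' = (π ▷ W) ≫ g :=
    Triangle.yoneda_exact₂ _ hR _ h1
  have h2 : (V ◁ δ) ≫ (csh V 1 (𝟙_ T)).hom ≫ ((ρ_ V).hom)⟦(1 : ℤ)⟧' = 0 := by
    rw [hg, hob g, comp_zero]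
  have h3 : ((V ◁ δ) ≫ (csh V 1 (𝟙_ T)).hom) ≫ (((ρ_ V).hom)⟦(1 : ℤ)⟧') = 0 := by
    rw [Category.assoc, h2]
  obtain ⟨m₀, hm₀⟩ : ∃ m₀ : V ⊗ V ⟶ V, (V ◁ η) ≫ m₀ = (ρ_ V).hom :=
    exists_extend _ hL (ρ_ V).hom h3
  -- Step 2: the defect of the left unit
  have h4 : η ≫ ((λ_ V).inv ≫ (η ▷ V) ≫ m₀ - 𝟙 V) = 0 := by
    rw [Preadditive.comp_sub, leftUnitor_inv_naturality_assoc, whisker_exchange_assoc, hm₀,
      rightUnitor_naturality, Category.comp_id, ← unitors_equal, Iso.inv_hom_id_assoc, sub_self]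
  obtain ⟨e, he⟩ : ∃ e : W ⟶ V, (λ_ V).inv ≫ (η ▷ V) ≫ m₀ - 𝟙 V = π ≫ e :=
    Triangle.yoneda_exact₂ _ hΔ _ h4
  have h5 : ((δ ▷ W) ≫ ((tensorRight W).commShiftIso (1 : ℤ)).hom.app (𝟙_ T)) ≫
      ((λ_ W).hom ≫ e)⟦(1 : ℤ)⟧' = 0 := hob _
  obtain ⟨g, hg⟩ : ∃ g : V ⊗ W ⟶ V, (η ▷ W) ≫ g = (λ_ W).hom ≫ e :=
    exists_extend _ hR ((λ_ W).hom ≫ e) h5
  refine ⟨⟨m₀ - (V ◁ π) ≫ g, ?_, ?_⟩⟩
  · rw [Preadditive.comp_sub, hm₀, ← MonoidalCategory.whiskerLeft_comp_assoc, hηπ]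
    simp
  · rw [Preadditive.comp_sub, ← whisker_exchange_assoc, hg, leftUnitor_naturality_assoc, ← he,
      Preadditive.comp_sub, Iso.hom_inv_id_assoc, Category.comp_id]
    abel

end Vale.Agent.P257.H314
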