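import Vale.Agent.P251.S.MUCobar
import Vale.Agent.P251.F.LazReg
import Vale.Agent.P251.F.WtProj
import Vale.Agent.P251.F.LazWt
import Vale.Agent.P251.S.RegMU
import Vale.Agent.P251.M.EvenShift
import Vale.Agent.P257.H314.Prod

/-!
# P257, package TOP-1: spectra with cyclic `MU`-homology `Laz / I_h`

`Cyc D p h i` (`i : 𝟙 ⟶ V`): for all `s` the groups `Hom (S^{2w}, MU^{⊗ (s+1)} ⊗ V)` are
`(Cob Laz s / I_h)_w` and the odd groups vanish.

* `cyc_modP` : `S/p` is cyclic (`h = 1`);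
* `Cyc.step` : the cofibre of a self map of `V` inducing `v_h` is cyclic for `h + 1`.
-/

open CategoryTheory MonoidalCategory Limits Pretriangulated MonObj

universe v u

set_option linter.unusedSectionVars false

namespace Vale.Agent.P257.H314

open Vale.Agent.P251 Vale.Agent.P251.T Vale.Agent.P251.M Vale.Agent.P251.S Vale.Agent.P251.F
open Vale.Agent.P251.M.EvenSpheres

variable {T : Type u} [Category.{v} T] [Preadditive T] [HasZeroObject T]
    [HasShift T ℤ] [∀ n : ℤ, (shiftFunctor T n).Additive] [Pretriangulated T]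
    [MonoidalCategory T] [SymmetricCategory T] [TensorTriangulated T] [HasCoproducts.{0} T]
    (D : I.MUData T)

/-- The ideal `I_h` of `Cob Laz s`. -/
noncomputable abbrev IC (p h s : ℕ) : Ideal (Cob Laz s) :=
  (Laz.I p h).map (MvPolynomial.C : Laz →+* Cob Laz s)

/-- `v_h` as a homogeneous element of `Cob Laz s`. -/
noncomputable def vw (p h s : ℕ) : Cob.wt Laz s ((p ^ h : ℤ) - 1) :=
  ⟨MvPolynomial.C (Laz.v p h), by
    have := Cob.isWt_v (N := Laz) (n := s) p h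
    rwa [ofLaz_laz] at this⟩

/-- `V` has cyclic `MU`-homology `Laz / I_h`. -/
structure Cyc (p h : ℕ) {V : T} (i : 𝟙_ T ⟶ V) : Prop where
  surj (s : ℕ) (w : ℤ) (f : (stdEven T).S w ⟶ Am D.R (s + 1) ⊗ V) :
    ∃ z : Cob.wt Laz s w, f = D.evw s w z ≫ (redC i).app (Am D.R (s + 1))
  ker (s : ℕ) (w : ℤ) (z : Cob.wt Laz s w) :
    D.evw s w z ≫ (redC i).app (Am D.R (s + 1)) = 0 ↔ z.1 ∈ IC p h s
  odd (s : ℕ) (k : ℤ) (f : (𝟙_ T)⟦2 * k + 1⟧ ⟶ Am D.R (s + 1) ⊗ V) : f = 0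

/-- `S/p` is cyclic. -/
theorem cyc_modP {p : ℕ} [Fact p.Prime] (hp : p ≠ 2) {C : T} {i : 𝟙_ T ⟶ C}
    {δ : C ⟶ (𝟙_ T)⟦(1 : ℤ)⟧} (hC : Triangle.mk ((p : ℤ) • 𝟙 (𝟙_ T)) i δ ∈ distTriang T) :
    Cyc D p 1 i where
  surj s w f := by
    obtain ⟨z, a, hz, ha, hf⟩ := D.surj p hp s C i δ hC w f
    have h1 : D.evw s w ⟨z, hz⟩ = a := D.evw_eq ha
    exact ⟨⟨z, hz⟩, by rw [h1]; exact hf⟩
  ker s w z := by
    have hI : IC p 1 s = Ideal.span {(p : Cob Laz s)} := by
      rw [IC, Laz.I, Ih, Ideal.map_span]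
      congr 1
      ext x
      constructor
      · rintro ⟨_, ⟨i, hi, rfl⟩, rfl⟩
        obtain rfl : i = 0 := by omega
        rw [vv_zero, map_natCast]
        rfl
      · rintro rfl
        exact ⟨_, ⟨0, Nat.one_pos, vv_zero p _⟩, map_natCast _ _⟩
    rw [hI, Ideal.mem_span_singleton]
    constructor
    · intro h
      obtain ⟨y, -, hy⟩ := D.ker p hp s C i δ hC w z.1 z.2 (D.evw s w z) (D.of_evw z).symm h
      refine ⟨y, ?_⟩
      rw [hy, zsmul_eq_mul]
      push_cast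
      rfl
    · rintro ⟨y, hy⟩
      have h2 : z = (p : ℤ) • (⟨Cob.pr Laz s w y, Cob.isWt_pr w y⟩ : Cob.wt Laz s w) := by
        apply Subtype.ext
        have h3 := congrArg (Cob.pr Laz s w) hy
        rw [Cob.pr_eq_self z.2] at h3
        have h4 : (p : Cob Laz s) * y = (p : ℤ) • y := by
          rw [zsmul_eq_mul]; push_cast; rfl
        rw [h3, h4, map_zsmul]
        rfl
      rw [h2, map_zsmul, zsmul_comp_red hC]
  odd s k f := D.odd p hp s C i δ hC k f

end Vale.Agent.P257.H314
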