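import Vale.Agent.P257.H314.Quot
import Vale.Agent.P257.H314.Assemble
import Vale.Agent.P251.M.CobDec

/-!
# P257, package TOP-1: descent of vanishing from `I_{h'}` to `I_h`

* `eq_zero_of_isWt_neg` : `Cob Laz n` is non-negatively graded;
* `algVan_of_succ` : `H^s(Cob Laz / I_{h+1})_w = 0` and `H^s(Cob Laz / I_h)_{w - |v_h|} = 0` imply
  `H^s(Cob Laz / I_h)_w = 0`;
* `algVan_desc` : `H^s(Cob Laz / I_h)_w = 0` if `H^s(Cob Laz / I_{h'})_{w'} = 0` for all
  `w' = w - ∑ e_i |v_i|` (`h ≤ i < h'`, `e_i ≥ 0`), `w' ≥ 0`.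
-/

open CategoryTheory MonoidalCategory Limits Pretriangulated

universe v u

set_option linter.unusedSectionVars false

namespace Vale.Agent.P257.H314

open Vale.Agent.P251 Vale.Agent.P251.F LaurentPolynomial

section neg

theorem chi_of_isWt {n : ℕ} {w : ℤ} {x : Cob Laz n} (hx : Cob.IsWt w x) :
    Cob.chi (Cob.univ Laz n) x = LaurentPolynomial.C x * T w := by
  rw [Cob.chi, hx, tU_zpow, Cob.ev_map, Cob.ev_univ, mul_comm]

theorem chi_mem_range {n : ℕ} (z : Cob Laz n) : Cob.chi (Cob.univ Laz n) z ∈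
    (Polynomial.toLaurent : Polynomial (Cob Laz n) →+* LaurentPolynomial (Cob Laz n)).range := by
  have key : ∀ (w : ℕ) (x : Cob Laz n), Cob.IsWt (w : ℤ) x → Cob.chi (Cob.univ Laz n) x ∈
      (Polynomial.toLaurent : Polynomial (Cob Laz n) →+* LaurentPolynomial (Cob Laz n)).range := by
    intro w x hx
    rw [chi_of_isWt hx]
    exact ⟨Polynomial.monomial w x, Polynomial.toLaurent_C_mul_T w x⟩
  induction z using MvPolynomial.induction_on with
  | C a =>
    obtain ⟨q, rfl⟩ := Laz.polyHom_surjective a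
    induction q using MvPolynomial.induction_on with
    | C k =>
      have : (MvPolynomial.C (Laz.polyHom (MvPolynomial.C k)) : Cob Laz n) = (k : Cob Laz n) := by
        rw [← MvPolynomial.algebraMap_eq, ← MvPolynomial.algebraMap_eq]
        simp
      rw [this, map_intCast]
      exact intCast_mem _ k
    | add p q hp hq =>
      rw [map_add, map_add, map_add]
      exact add_mem hp hq
    | mul_X p i hp =>
      rw [map_mul, map_mul, map_mul, Laz.polyHom_X]
      refine mul_mem hp (key (i + 1) _ ?_)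
      have h1 := (Laz.isWt_x i).map (fun _ => 0 : Fin 1 → Fin (n + 1))
      rwa [Cob_map_C] at h1
  | add p q hp hq =>
    rw [map_add]
    exact add_mem hp hq
  | mul_X p im hp =>
    rw [map_mul]
    exact mul_mem hp (key (im.2 + 1) _ (Cob.isWt_X im.1 im.2))

theorem coeff_toLaurent_neg {R : Type*} [CommRing R] (f : Polynomial R) {w : ℤ} (hw : w < 0) :
    (Polynomial.toLaurent f).coeff w = 0 := by
  induction f using Polynomial.induction_on' with
  | add p q hp hq =>
    rw [map_add]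
    simp only [AddMonoidAlgebra.coeff_add, Finsupp.add_apply, hp, hq, add_zero]
  | monomial n a =>
    rw [Polynomial.toLaurent_C_mul_T, coeff_C_mul_TW, if_neg (by omega)]

/-- `Cob Laz n` is non-negatively graded. -/
theorem eq_zero_of_isWt_neg {n : ℕ} {w : ℤ} (hw : w < 0) {x : Cob Laz n} (hx : Cob.IsWt w x) :
    x = 0 := by
  rw [← Cob.pr_eq_self hx, Cob.pr_apply]
  obtain ⟨f, hf⟩ := chi_mem_range x
  rw [← hf]
  exact coeff_toLaurent_neg f hw

end neg

section inv

variable {p h : ℕ}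

/-- The action on the vertices preserves `I_h`. -/
theorem map_mem_IC [Fact p.Prime] {m n : ℕ} (α : Fin (m + 1) → Fin (n + 1)) {z : Cob Laz m}
    (hz : z ∈ IC p h m) : Cob.map α z ∈ IC p h n := by
  rw [← mapRing_eq_zero_iff] at hz ⊢
  rw [Cob.mapRing_map (isLawHom_mkI p h), hz, map_zero]

theorem d_mem_IC [Fact p.Prime] {n : ℕ} {z : Cob Laz n} (hz : z ∈ IC p h n) :
    Cob.d n z ∈ IC p h (n + 1) := by
  rw [← mapRing_eq_zero_iff] at hz ⊢
  rw [Cob.mapRing_d (isLawHom_mkI p h), hz, map_zero]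

/-- `v_h` is invariant modulo `I_h`. -/
theorem map_v_sub_mem [Fact p.Prime] {m n : ℕ} (α : Fin (m + 1) → Fin (n + 1)) :
    Cob.map α (MvPolynomial.C (Laz.v p h)) - MvPolynomial.C (Laz.v p h) ∈ IC p h n := by
  have hC : IC p h n = Ih p h (Laz.univ.map (MvPolynomial.C : Laz →+* Cob Laz n)) :=
    Laz.I_map p h _
  have hc : ((Cob.univ Laz n).g (α 0)).c 0 = 1 := (Cob.univ Laz n).strict (α 0)
  have h1 := vv_smul_sub_mem p h (Laz.univ.map (MvPolynomial.C : Laz →+* Cob Laz n))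
    ((Cob.univ Laz n).g (α 0))
  rw [hc, one_pow, _root_.mul_one, _root_.one_mul, ← hC] at h1
  have h2 : Cob.map α (MvPolynomial.C (Laz.v p h)) = vv p h ((Cob.univ Laz n).g (α 0) •
      Laz.univ.map (MvPolynomial.C : Laz →+* Cob Laz n)) := by
    rw [Cob.map, Cob.ev_C, Chain.res_pt, Laz.map_v]
    congr 1
    exact LawRing.law_act ((Cob.univ Laz n).g (α 0)) (Cob.univ Laz n).pt
  rw [h2, Laz.map_v]
  exact h1

/-- `d (b v_h) = d b v_h` modulo `I_h`. -/
theorem d_mul_v_sub_mem [Fact p.Prime] {n : ℕ} (b : Cob Laz n) :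
    Cob.d n (b * MvPolynomial.C (Laz.v p h)) - Cob.d n b * MvPolynomial.C (Laz.v p h) ∈
      IC p h (n + 1) := by
  rw [Cob.d_apply, Cob.d_apply, Finset.sum_mul, ← Finset.sum_sub_distrib]
  refine Submodule.sum_mem _ fun j _ => ?_
  rw [map_mul, smul_mul_assoc, ← smul_sub, ← mul_sub]
  exact zsmul_mem (Ideal.mul_mem_left _ _ (map_v_sub_mem (p := p) (h := h) _)) _

theorem IC_mono {s : ℕ} : IC p h s ≤ IC p (h + 1) s := fun a ha =>
  mem_IC_succ_iff.2 ⟨a, ha, 0, by rw [zero_mul, add_zero]⟩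

/-- homogeneous decomposition of the elements of `I_{h+1}` -/
theorem exists_of_mem_succ {s : ℕ} {w : ℤ} {a : Cob Laz s} (hw : Cob.IsWt w a)
    (ha : a ∈ IC p (h + 1) s) : ∃ b : Cob Laz s, Cob.IsWt (w - ((p ^ h : ℤ) - 1)) b ∧
      a - b * MvPolynomial.C (Laz.v p h) ∈ IC p h s := by
  obtain ⟨y, hy, z, rfl⟩ := mem_IC_succ_iff.1 ha
  refine ⟨Cob.pr Laz s (w - ((p ^ h : ℤ) - 1)) z, Cob.isWt_pr _ _, ?_⟩
  have h1 : Cob.pr Laz s w (z * MvPolynomial.C (Laz.v p h)) =
      Cob.pr Laz s (w - ((p ^ h : ℤ) - 1)) z * MvPolynomial.C (Laz.v p h) := by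
    have h2 : ∀ v, ∀ z : Cob Laz s, Cob.IsWt v z →
        Cob.pr Laz s w (z * MvPolynomial.C (Laz.v p h)) =
        Cob.pr Laz s (w - ((p ^ h : ℤ) - 1)) z * MvPolynomial.C (Laz.v p h) := by
      intro v z hz
      have h5 : Cob.IsWt (v + ((p ^ h : ℤ) - 1)) (z * MvPolynomial.C (Laz.v p h)) :=
        hz.mul (vw p h s).2
      rw [Cob.pr_of_isWt h5, Cob.pr_of_isWt hz]
      split_ifs with h3 h4 h4
      · rfl
      · omega
      · omega
      · rw [zero_mul]
    rw [← Cob.sum_pr z, Finset.sum_mul, map_sum, map_sum, Finset.sum_mul]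
    exact Finset.sum_congr rfl fun v _ => h2 v _ (Cob.isWt_pr v z)
  have h2 := Cob.pr_eq_self hw
  rw [map_add, h1] at h2
  rw [← h2, add_sub_cancel_right]
  exact pr_mem_IC w hy

/-- The long exact sequence of `0 → Laz/I_h → Laz/I_h → Laz/I_{h+1} → 0`. -/
theorem algVan_of_succ [Fact p.Prime] {s : ℕ} {w : ℤ} (h1 : AlgVan p (h + 1) s w)
    (h2 : AlgVan p h s (w - ((p ^ h : ℤ) - 1))) : AlgVan p h s w := by
  cases s with
  | zero =>
    intro z hz hdz
    obtain ⟨b, hb, hzb⟩ := exists_of_mem_succ hz (h1 z hz (IC_mono hdz))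
    have h3 : Cob.d 0 b * MvPolynomial.C (Laz.v p h) ∈ IC p h 1 := by
      have h4 := sub_mem (sub_mem hdz (d_mem_IC hzb)) (d_mul_v_sub_mem (p := p) (h := h) b)
      rw [map_sub] at h4
      convert h4 using 1
      abel
    have h5 : Cob.d 0 b ∈ IC p h 1 := by
      apply mem_map_C_I_of_v_mul p le_rfl
      rw [mul_comm]
      exact h3
    have h6 := add_mem hzb (Ideal.mul_mem_right (MvPolynomial.C (Laz.v p h)) _ (h2 b hb h5))
    rwa [sub_add_cancel] at h6
  | succ s =>
    intro z hz hdz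
    obtain ⟨y, hy, hzy⟩ := h1 z hz (IC_mono hdz)
    obtain ⟨b, hb, hzb⟩ := exists_of_mem_succ
      ((Cob.wt Laz (s + 1) w).sub_mem hz hy.d) hzy
    have h3 : Cob.d (s + 1) b * MvPolynomial.C (Laz.v p h) ∈ IC p h (s + 2) := by
      have h4 := sub_mem (sub_mem hdz (d_mem_IC hzb)) (d_mul_v_sub_mem (p := p) (h := h) b)
      rw [map_sub, map_sub, Cob.d_d, sub_zero] at h4
      convert h4 using 1
      abel
    have h5 : Cob.d (s + 1) b ∈ IC p h (s + 2) := by
      apply mem_map_C_I_of_v_mul p le_rfl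
      rw [mul_comm]
      exact h3
    obtain ⟨c, hc, hbc⟩ := h2 b hb h5
    refine ⟨y + c * MvPolynomial.C (Laz.v p h), hy.add ?_, ?_⟩
    · have := hc.mul (vw p h s).2
      rwa [sub_add_cancel] at this
    · have h6 := sub_mem (add_mem hzb (Ideal.mul_mem_right (MvPolynomial.C (Laz.v p h)) _ hbc))
        (d_mul_v_sub_mem (p := p) (h := h) c)
      rw [sub_mul] at h6
      rw [map_add]
      convert h6 using 1
      abel

theorem algVan_neg {s : ℕ} {w : ℤ} (hw : w < 0) : AlgVan p h s w := by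
  cases s with
  | zero =>
    intro z hz _
    rw [eq_zero_of_isWt_neg hw hz]
    exact zero_mem _
  | succ s =>
    intro z hz _
    refine ⟨0, Cob.isWt_zero _, ?_⟩
    rw [eq_zero_of_isWt_neg hw hz, map_zero, sub_zero]
    exact zero_mem _

/-- One step of the descent: from `I_{h+1}` to `I_h`, `h ≥ 1`. -/
theorem algVan_desc_one [Fact p.Prime] (hh : 1 ≤ h) {s : ℕ} {w : ℤ}
    (H : ∀ e : ℕ, 0 ≤ w - e * ((p ^ h : ℤ) - 1) →
      AlgVan p (h + 1) s (w - e * ((p ^ h : ℤ) - 1))) : AlgVan p h s w := by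
  have hp : (1 : ℤ) < (p : ℤ) := by exact_mod_cast (Fact.out : p.Prime).one_lt
  have hph : (1 : ℤ) ≤ (p : ℤ) ^ h - 1 := by
    have h1 : (p : ℤ) ^ 1 ≤ (p : ℤ) ^ h := pow_le_pow_right₀ hp.le hh
    rw [pow_one] at h1
    omega
  obtain ⟨n, hn⟩ : ∃ n : ℕ, w < n := ⟨w.toNat + 1, by omega⟩
  induction n generalizing w with
  | zero => exact algVan_neg (by exact_mod_cast hn)
  | succ n ih =>
    rcases lt_or_ge w 0 with hw | hw
    · exact algVan_neg hw
    refine algVan_of_succ ?_ (ih (fun e he => ?_) (by push_cast at hn; omega))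
    · have := H 0 (by push_cast; omega)
      simpa using this
    · have := H (e + 1) (by push_cast; linarith)
      convert this using 1
      push_cast
      ring

/-- **Descent** from `I_{h'}` to `I_h`. -/
theorem algVan_desc [Fact p.Prime] (hh : 1 ≤ h) (k : ℕ) {s : ℕ} {w : ℤ}
    (H : ∀ e : ℕ → ℕ, 0 ≤ w - ∑ i ∈ Finset.range k, (e i : ℤ) * ((p ^ (h + i) : ℤ) - 1) →
      AlgVan p (h + k) s (w - ∑ i ∈ Finset.range k, (e i : ℤ) * ((p ^ (h + i) : ℤ) - 1))) :
    AlgVan p h s w := by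
  induction k generalizing h w with
  | zero =>
    rcases lt_or_ge w 0 with hw | hw
    · exact algVan_neg hw
    have := H (fun _ => 0) (by simpa using hw)
    simpa using this
  | succ k ih =>
    refine algVan_desc_one hh fun e he => ?_
    refine ih (by omega) fun e' he' => ?_
    have h1 : ∀ w : ℤ, w - (e : ℤ) * ((p ^ h : ℤ) - 1) -
        ∑ i ∈ Finset.range k, (e' i : ℤ) * ((p ^ (h + 1 + i) : ℤ) - 1) =
        w - ∑ i ∈ Finset.range (k + 1), ((if i = 0 then e else e' (i - 1) : ℕ) : ℤ) *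
          ((p ^ (h + i) : ℤ) - 1) := by
      intro w
      rw [Finset.sum_range_succ']
      have : ∀ i, h + 1 + i = h + (i + 1) := fun i => by ring
      simp only [this, if_pos, Nat.succ_ne_zero, if_false, Nat.add_sub_cancel, add_zero]
      rw [← sub_sub, sub_sub, sub_sub, add_comm]
    have h2 := H (fun i => if i = 0 then e else e' (i - 1)) (by rw [← h1]; exact he')
    rw [← h1] at h2
    rwa [show h + 1 + k = h + (k + 1) by ring]

end inv

end Vale.Agent.P257.H314
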