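import Vale.Agent.P251.M.Conn
import Vale.Agent.P251.M.EvenCell
import Vale.Agent.P251.S.TensorShift

/-!
# P257, package TOP-1: finite complexes with prescribed dimensions of cells

`FinCell S X` : `X` is an iterated extension of spheres `𝟙⟦d⟧`, `d ∈ S`.
-/

open CategoryTheory MonoidalCategory Limits Pretriangulated ZeroObject

universe v u

set_option linter.unusedSectionVars false

namespace Vale.Agent.P257.H314

open Vale.Agent.P251.T Vale.Agent.P251.M Vale.Agent.P251.S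

variable {T : Type u} [Category.{v} T] [Preadditive T] [HasZeroObject T]
    [HasShift T ℤ] [∀ n : ℤ, (shiftFunctor T n).Additive] [Pretriangulated T]
    [MonoidalCategory T]

variable (T) in
/-- The smallest class of objects containing zero and `𝟙⟦d⟧`, `d ∈ S`, closed under extensions. -/
inductive FinCell (S : Set ℤ) : T → Prop
  | zero (X : T) (hX : IsZero X) : FinCell S X
  | sphere (d : ℤ) (hd : d ∈ S) : FinCell S ((𝟙_ T)⟦d⟧)
  | ext (Δ : Triangle T) (hΔ : Δ ∈ distTriang T) (h₁ : FinCell S Δ.obj₁)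
      (h₃ : FinCell S Δ.obj₃) : FinCell S Δ.obj₂

namespace FinCell

lemma mono {S S' : Set ℤ} (h : S ⊆ S') {X : T} (hX : FinCell T S X) : FinCell T S' X := by
  induction hX with
  | zero X hX => exact zero X hX
  | sphere d hd => exact sphere d (h hd)
  | ext Δ hΔ _ _ ih₁ ih₃ => exact ext Δ hΔ ih₁ ih₃

lemma of_iso {S : Set ℤ} {X Y : T} (e : X ≅ Y) (hX : FinCell T S X) : FinCell T S Y := by
  refine ext (Triangle.mk e.hom (0 : Y ⟶ 0) 0) ?_ hX (zero _ (isZero_zero T))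
  rw [Triangle.distinguished_iff_of_isZero₃ _ (isZero_zero T)]
  change IsIso e.hom
  infer_instance

lemma unit {S : Set ℤ} (h : (0 : ℤ) ∈ S) : FinCell T S (𝟙_ T) :=
  of_iso ((shiftFunctorZero T ℤ).app (𝟙_ T)) (sphere 0 h)

lemma shift {S : Set ℤ} {X : T} (hX : FinCell T S X) (m : ℤ) {S' : Set ℤ}
    (h : ∀ d ∈ S, d + m ∈ S') : FinCell T S' (X⟦m⟧) := by
  induction hX with
  | zero X hX => exact zero _ ((shiftFunctor T m).map_isZero hX)
  | sphere d hd =>
    exact of_iso ((shiftFunctorAdd' T d m (d + m) rfl).app (𝟙_ T)) (sphere (d + m) (h d hd))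
  | ext Δ hΔ _ _ ih₁ ih₃ => exact ext _ (Triangle.shift_distinguished Δ hΔ m) ih₁ ih₃

/-- the third object of a triangle -/
lemma ext₃ {S S' : Set ℤ} (Δ : Triangle T) (hΔ : Δ ∈ distTriang T)
    (h₂ : FinCell T S' Δ.obj₂) (h₁ : FinCell T S Δ.obj₁) (h : ∀ d ∈ S, d + 1 ∈ S')  :
    FinCell T S' Δ.obj₃ :=
  ext _ (rot_of_distTriang _ hΔ) h₂ (h₁.shift 1 h)

/-- maps out of a finite complex -/
lemma eq_zero {S : Set ℤ} {X : T} (hX : FinCell T S X) {Y : T}
    (h : ∀ d ∈ S, ∀ f : (𝟙_ T)⟦d⟧ ⟶ Y, f = 0) (f : X ⟶ Y) : f = 0 := by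
  induction hX with
  | zero X hX => exact hX.eq_of_src _ _
  | sphere d hd => exact h d hd f
  | ext Δ hΔ _ _ ih₁ ih₃ =>
    obtain ⟨g, hg⟩ := Triangle.yoneda_exact₂ Δ hΔ f (ih₁ _)
    rw [hg, ih₃ g, comp_zero]

/-- maps out of a shifted finite complex -/
lemma eq_zero_shift {S : Set ℤ} {X : T} (hX : FinCell T S X) {Y : T} (m : ℤ)
    (h : ∀ d ∈ S, ∀ f : (𝟙_ T)⟦d + m⟧ ⟶ Y, f = 0) (f : X⟦m⟧ ⟶ Y) : f = 0 := by
  refine (hX.shift m (S' := {e | ∃ d ∈ S, e = d + m}) fun d hd => ⟨d, hd, rfl⟩).eq_zero ?_ f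
  rintro _ ⟨d, hd, rfl⟩ g
  exact h d hd g

lemma bigCell [HasCoproducts.{0} T] {S : Set ℤ} {X : T} (hX : FinCell T S X) (n : ℤ)
    (h : ∀ d ∈ S, n ≤ d) : BigCell T n X := by
  induction hX with
  | zero X hX => exact BigCell.zero hX
  | sphere d hd => exact BigCell.sphere d (h d hd)
  | ext Δ hΔ _ _ ih₁ ih₃ => exact BigCell.ext Δ hΔ ih₁ ih₃

section Tensor

variable [SymmetricCategory T] [TensorTriangulated T]

lemma isZero_tensor {X Y : T} (hY : IsZero Y) : IsZero (X ⊗ Y) :=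
  (tensorLeft X).map_isZero hY

lemma tensor {S S' S'' : Set ℤ} {X Y : T} (hX : FinCell T S X) (hY : FinCell T S' Y)
    (h : ∀ d ∈ S, ∀ e ∈ S', d + e ∈ S'') : FinCell T S'' (X ⊗ Y) := by
  induction hY with
  | zero Y hY => exact zero _ (isZero_tensor hY)
  | sphere e he =>
    exact of_iso (tensorSph e X).symm (hX.shift e fun d hd => h d hd e he)
  | ext Δ hΔ _ _ ih₁ ih₃ =>
    exact ext _ (TensorTriangulated.distinguished X Δ hΔ) ih₁ ih₃

end Tensor

end FinCell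

end Vale.Agent.P257.H314
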