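import Vale.Agent.P257.H314.Cyc

/-!
# P257, package TOP-1: the cofibre step

`Cyc.step` : let `V` be cyclic for `h`, `x ∈ π_{2N} V` detected by `v_h` and `f : S^{2N} ⊗ V ⟶ V` an
extension of `x`.  Then the cofibre of `f` is cyclic for `h + 1`.
-/

open CategoryTheory MonoidalCategory Limits Pretriangulated MonObj

universe v u

set_option linter.unusedSectionVars false

namespace Vale.Agent.P257.H314

open Vale.Agent.P251 Vale.Agent.P251.T Vale.Agent.P251.M Vale.Agent.P251.S Vale.Agent.P251.F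
open Vale.Agent.P251.M.EvenSpheres

section Mon

variable {T : Type u} [Category.{v} T] [MonoidalCategory T] [SymmetricCategory T]
  (E : EvenSpheres T)

instance isInv_S (n : ℤ) : IsInv (E.S n) :=
  IsInv.of_inverse (L' := E.S (-n)) (E.mu n (-n) 0 (by ring) ≪≫ E.zero.symm)

/-- naturality of the unit map in the monoid -/
@[reassoc]
lemma unitMap_whiskerRight {A B : T} [MonObj A] [MonObj B] (φ : A ⟶ B) [IsMonHom φ] (V : T) :
    unitMap A V ≫ (φ ▷ V) = unitMap B V := by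
  rw [unitMap, unitMap, Category.assoc, ← comp_whiskerRight, IsMonHom.one_hom]

/-- `S ⊗ X ⟶ A ⊗ (S ⊗ V)` from `X ⟶ A ⊗ V` -/
noncomputable def tw (S : T) {X A V : T} (y : X ⟶ A ⊗ V) : S ⊗ X ⟶ A ⊗ (S ⊗ V) :=
  (S ◁ y) ≫ (α_ S A V).inv ≫ ((β_ S A).hom ▷ V) ≫ (α_ A S V).hom

lemma tw_surj (S : T) [IsInv S] {X A V : T} (g : S ⊗ X ⟶ A ⊗ (S ⊗ V)) :
    ∃ y : X ⟶ A ⊗ V, g = tw S y := by
  obtain ⟨y, hy⟩ := whiskerLeft_surj S (g ≫ (α_ A S V).inv ≫ ((β_ S A).inv ▷ V) ≫ (α_ S A V).hom)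
  refine ⟨y, ?_⟩
  rw [tw, hy]
  simp

/-- The formula for a map `f : S ⊗ V ⟶ V` which extends `x`. -/
lemma tw_comp {S X A V : T} (a : X ⟶ A) (i : 𝟙_ T ⟶ V) (x : S ⟶ V) (f : S ⊗ V ⟶ V)
    (hf : (S ◁ i) ≫ f = (ρ_ S).hom ≫ x) :
    tw S (a ≫ (ρ_ A).inv ≫ (A ◁ i)) ≫ (A ◁ f) = (β_ S X).hom ≫ (a ⊗ₘ x) := by
  have h1 : (S ◁ (A ◁ i)) ≫ (α_ S A V).inv ≫ ((β_ S A).hom ▷ V) ≫ (α_ A S V).hom =
      (α_ S A (𝟙_ T)).inv ≫ ((β_ S A).hom ▷ (𝟙_ T)) ≫ (α_ A S (𝟙_ T)).hom ≫ (A ◁ (S ◁ i)) := by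
    rw [← associator_naturality_right, ← whisker_exchange_assoc, associator_inv_naturality_right_assoc]
  have h2 : (A ◁ (S ◁ i)) ≫ (A ◁ f) = (A ◁ (ρ_ S).hom) ≫ (A ◁ x) := by
    rw [← MonoidalCategory.whiskerLeft_comp, hf, MonoidalCategory.whiskerLeft_comp]
  rw [tw, MonoidalCategory.whiskerLeft_comp, MonoidalCategory.whiskerLeft_comp]
  simp only [Category.assoc]
  rw [reassoc_of% h1, h2]
  have h3 : (S ◁ (ρ_ A).inv) ≫ (α_ S A (𝟙_ T)).inv ≫ ((β_ S A).hom ▷ (𝟙_ T)) ≫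
      (α_ A S (𝟙_ T)).hom ≫ (A ◁ (ρ_ S).hom) = (β_ S A).hom := by
    simp
  rw [reassoc_of% h3, BraidedCategory.braiding_naturality_right_assoc, tensorHom_def]

/-- External product with a class detected by `b`. -/
lemma ext_det {A V : T} [MonObj A] {i : 𝟙_ T ⟶ V} {m n q : ℤ} (h : m + n = q) (a : E.S m ⟶ A)
    (b : E.S n ⟶ A) (x : E.S n ⟶ V)
    (hx : x ≫ unitMap A V = b ≫ (ρ_ A).inv ≫ (A ◁ i)) :
    E.ext h a x = gmul h a b ≫ (ρ_ A).inv ≫ (A ◁ i) := by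
  have h1 : (A ◁ ((ρ_ A).inv ≫ (A ◁ i))) ≫ mulMap A V = μ[A] ≫ (ρ_ A).inv ≫ (A ◁ i) := by
    rw [mulMap, MonoidalCategory.whiskerLeft_comp, Category.assoc,
      associator_inv_naturality_right_assoc, whisker_exchange, rightUnitor_inv_naturality_assoc]
    simp
  calc E.ext h a x = E.ext h a (x ≫ unitMap A V) ≫ mulMap A V := by
        rw [ext_comp_right, Category.assoc, whiskerLeft_unitMap_mulMap, Category.comp_id]
    _ = _ := by
        rw [hx, ext_comp_right, Category.assoc, h1, gmul, Category.assoc]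

end Mon

variable {T : Type u} [Category.{v} T] [Preadditive T] [HasZeroObject T]
    [HasShift T ℤ] [∀ n : ℤ, (shiftFunctor T n).Additive] [Pretriangulated T]
    [MonoidalCategory T] [SymmetricCategory T] [TensorTriangulated T] [HasCoproducts.{0} T]
    (D : I.MUData T)

/-- Multiplicativity of `evw`. -/
lemma evw_mul {s : ℕ} {m n q : ℤ} (h : m + n = q) (z : Cob.wt Laz s m) (z' : Cob.wt Laz s n)
    (z'' : Cob.wt Laz s q) (hz : z''.1 = z.1 * z'.1) :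
    D.evw s q z'' = gmul h (D.evw s m z) (D.evw s n z') := by
  apply D.evw_eq
  have h1 := D.of_evw z
  have h2 := D.of_evw z'
  rw [hz, map_mul, ← h1, ← h2, of_mul_of h]

/-- `x` is detected by `v`. -/
def Det {V : T} (i : 𝟙_ T ⟶ V) {N : ℤ} (x : (stdEven T).S N ⟶ V) (v : Cob.wt Laz 0 N) : Prop :=
  x ≫ unitMap (Am D.R 1) V = D.evw 0 N v ≫ (redC i).app (Am D.R 1)

variable {D}

lemma Det.map {V : T} {i : 𝟙_ T ⟶ V} {N : ℤ} {x : (stdEven T).S N ⟶ V} {v : Cob.wt Laz 0 N}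
    (hx : Det D i x v) (s : ℕ) (α : Fin 1 → Fin (s + 1)) :
    x ≫ unitMap (Am D.R (s + 1)) V =
      D.evw s N ⟨Cob.map α v.1, v.2.map α⟩ ≫ (redC i).app (Am D.R (s + 1)) := by
  have h2 := (redC i).naturality (Am.map D.R α)
  change Am.map D.R α ≫ (redC i).app _ = (redC i).app _ ≫ (Am.map D.R α ▷ V) at h2
  rw [← D.evw_map, Category.assoc, h2, ← Category.assoc, ← hx, Category.assoc,
    unitMap_whiskerRight]

theorem Cob_map_C {s : ℕ} (a : Laz) :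
    Cob.map (fun _ => 0 : Fin 1 → Fin (s + 1)) (MvPolynomial.C a : Cob Laz 0) =
      (MvPolynomial.C a : Cob Laz s) := by
  rw [Cob.map, Cob.ev_C, Chain.res_pt, Cob.univ_g_zero, LawRing.act_one, Cob.univ_pt]

/-- Multiplication by `v_h`, on the first vertex. -/
noncomputable def mulv (p h s : ℕ) {m q : ℤ} (hq : m + ((p ^ h : ℤ) - 1) = q)
    (z : Cob.wt Laz s m) : Cob.wt Laz s q :=
  ⟨z.1 * (vw p h s).1, by rw [← hq]; exact z.2.mul (vw p h s).2⟩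

/-- The effect of `f` on homotopy. -/
lemma tw_evw {p h : ℕ} {V : T} {i : 𝟙_ T ⟶ V} {N : ℤ} (hN : N = (p ^ h : ℤ) - 1)
    {x : (stdEven T).S N ⟶ V}
    (hx : Det D i x (hN ▸ vw p h 0)) {f : (stdEven T).S N ⊗ V ⟶ V}
    (hf : ((stdEven T).S N ◁ i) ≫ f = (ρ_ _).hom ≫ x) (s : ℕ) {m q : ℤ} (hq : N + m = q)
    (z : Cob.wt Laz s m) :
    ((stdEven T).mu N m q hq).inv ≫
      tw ((stdEven T).S N) (D.evw s m z ≫ (redC i).app (Am D.R (s + 1))) ≫
      (Am D.R (s + 1) ◁ f) =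
      D.evw s q (mulv p h s (by rw [← hN, add_comm]; exact hq) z) ≫
        (redC i).app (Am D.R (s + 1)) := by
  subst hN
  have h1 := tw_comp (D.evw s m z) i x f hf
  have h2 : ((stdEven T).mu ((p ^ h : ℤ) - 1) m q hq).inv ≫
      (β_ ((stdEven T).S ((p ^ h : ℤ) - 1)) ((stdEven T).S m)).hom =
      ((stdEven T).mu m ((p ^ h : ℤ) - 1) q (by rw [add_comm]; exact hq)).inv := by
    rw [Iso.inv_comp_eq, ← (stdEven T).mu_comm _ _ q hq (by rw [add_comm]; exact hq),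
      Category.assoc, Iso.hom_inv_id, Category.comp_id]
  have h3 := ext_det (stdEven T) (show m + ((p ^ h : ℤ) - 1) = q by rw [add_comm]; exact hq)
    (D.evw s m z) _ x (hx.map s (fun _ => 0))
  rw [redC_app, h1, reassoc_of% h2]
  refine h3.trans ?_
  rw [evw_mul D (show m + ((p ^ h : ℤ) - 1) = q by rw [add_comm]; exact hq) z
    ⟨Cob.map (fun _ => 0 : Fin 1 → Fin (s + 1)) (vw p h 0).1, (vw p h 0).2.map _⟩
    (mulv p h s (by rw [add_comm]; exact hq) z)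
    (by change _ = z.1 * Cob.map _ (MvPolynomial.C (Laz.v p h)); rw [Cob_map_C]; rfl)]

variable (T) in
/-- `S^{2n} ≅ 𝟙⟦2n⟧` -/
noncomputable def sI (n : ℤ) : (stdEven T).S n ≅ (𝟙_ T)⟦(2 * n : ℤ)⟧ :=
  (stdEven T).sphIso (Iso.refl _) n

/-- `A ⊗ (S^{2N} ⊗ V) ≅ (A ⊗ V)⟦2N⟧` -/
noncomputable def twI (N : ℤ) (A V : T) : A ⊗ ((stdEven T).S N ⊗ V) ≅ (A ⊗ V)⟦(2 * N : ℤ)⟧ :=
  (α_ _ _ _).symm ≪≫ whiskerRightIso (β_ A _) V ≪≫ α_ _ _ _ ≪≫
    whiskerRightIso (sI T N) (A ⊗ V) ≪≫ sphTensor (2 * N) (A ⊗ V)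

section step

variable {p h : ℕ} {V : T} {i : 𝟙_ T ⟶ V} (H : Cyc D p h i)

include H

lemma Cyc.odd_tw (N : ℤ) (s : ℕ) (k : ℤ)
    (g : (𝟙_ T)⟦2 * k + 1⟧ ⟶ Am D.R (s + 1) ⊗ ((stdEven T).S N ⊗ V)) : g = 0 := by
  rw [← cancel_mono (twI N (Am D.R (s + 1)) V).hom, zero_comp]
  exact eq_zero_of_shift (2 * (k - N) + 1) (2 * N) (2 * k + 1) (by ring)
    (fun f => H.odd s (k - N) f) _

/-- Regularity of `v_h`. -/
lemma Cyc.regular [Fact p.Prime] {N : ℤ} (hN : N = (p ^ h : ℤ) - 1)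
    {x : (stdEven T).S N ⟶ V} (hx : Det D i x (hN ▸ vw p h 0)) {f : (stdEven T).S N ⊗ V ⟶ V}
    (hf : ((stdEven T).S N ◁ i) ≫ f = (ρ_ _).hom ≫ x) (s : ℕ) (k : ℤ)
    (g : (stdEven T).S k ⟶ Am D.R (s + 1) ⊗ ((stdEven T).S N ⊗ V))
    (hg : g ≫ (Am D.R (s + 1) ◁ f) = 0) : g = 0 := by
  have hq : N + (k - N) = k := by ring
  obtain ⟨y, hy⟩ := tw_surj ((stdEven T).S N) (((stdEven T).mu N (k - N) k hq).hom ≫ g)
  have hy' : g = ((stdEven T).mu N (k - N) k hq).inv ≫ tw ((stdEven T).S N) y := by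
    rw [← hy, Iso.inv_hom_id_assoc]
  obtain ⟨z, rfl⟩ := H.surj s (k - N) y
  have h1 := tw_evw hN hx hf s hq z
  rw [hy', Category.assoc, h1, H.ker] at hg
  have h2 : z.1 ∈ IC p h s := by
    apply mem_map_C_I_of_v_mul p le_rfl
    rw [mul_comm]
    exact hg
  rw [hy', (H.ker s (k - N) z).2 h2, tw]
  simp

/-- The effect of `f` on homotopy groups: the image. -/
lemma Cyc.image [Fact p.Prime] {N : ℤ} (hN : N = (p ^ h : ℤ) - 1)
    {x : (stdEven T).S N ⟶ V} (hx : Det D i x (hN ▸ vw p h 0)) {f : (stdEven T).S N ⊗ V ⟶ V}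
    (hf : ((stdEven T).S N ◁ i) ≫ f = (ρ_ _).hom ≫ x) (s : ℕ) (k : ℤ)
    (g : (stdEven T).S k ⟶ Am D.R (s + 1) ⊗ ((stdEven T).S N ⊗ V)) :
    ∃ z : Cob.wt Laz s (k - N), g ≫ (Am D.R (s + 1) ◁ f) =
      D.evw s k (mulv p h s (by rw [← hN]; ring) z) ≫ (redC i).app (Am D.R (s + 1)) := by
  have hq : N + (k - N) = k := by ring
  obtain ⟨y, hy⟩ := tw_surj ((stdEven T).S N) (((stdEven T).mu N (k - N) k hq).hom ≫ g)
  have hy' : g = ((stdEven T).mu N (k - N) k hq).inv ≫ tw ((stdEven T).S N) y := by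
    rw [← hy, Iso.inv_hom_id_assoc]
  obtain ⟨z, rfl⟩ := H.surj s (k - N) y
  have h1 := tw_evw hN hx hf s hq z
  exact ⟨z, by rw [hy', Category.assoc, h1]⟩

omit H in
theorem mem_IC_succ_iff {s : ℕ} {a : Cob Laz s} :
    a ∈ IC p (h + 1) s ↔ ∃ y ∈ IC p h s, ∃ z : Cob Laz s,
      a = y + z * MvPolynomial.C (Laz.v p h) := by
  have e : ∀ h, IC p h s = Ideal.span {x | ∃ i < h, MvPolynomial.C (Laz.v p i) = x} := by
    intro h
    rw [IC, Laz.I, Ih, Ideal.map_span]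
    congr 1
    ext x
    constructor
    · rintro ⟨_, ⟨i, hi, rfl⟩, rfl⟩
      exact ⟨i, hi, rfl⟩
    · rintro ⟨i, hi, rfl⟩
      exact ⟨_, ⟨i, hi, rfl⟩, rfl⟩
  have e2 : IC p (h + 1) s = IC p h s ⊔ Ideal.span {MvPolynomial.C (Laz.v p h)} := by
    rw [e, e, ← Ideal.span_union]
    congr 1
    ext x
    constructor
    · rintro ⟨i, hi, rfl⟩
      rcases Nat.lt_succ_iff_lt_or_eq.1 hi with h1 | rfl
      · exact Or.inl ⟨i, h1, rfl⟩
      · exact Or.inr rfl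
    · rintro (⟨i, hi, rfl⟩ | rfl)
      · exact ⟨i, by omega, rfl⟩
      · exact ⟨h, by omega, rfl⟩
  rw [e2, Submodule.mem_sup]
  constructor
  · rintro ⟨y, hy, z, hz, rfl⟩
    obtain ⟨z, rfl⟩ := Ideal.mem_span_singleton'.1 hz
    exact ⟨y, hy, z, rfl⟩
  · rintro ⟨y, hy, z, rfl⟩
    exact ⟨y, hy, _, Ideal.mem_span_singleton'.2 ⟨z, rfl⟩, rfl⟩

omit H in
/-- The ideal `I_h` is homogeneous. -/
theorem pr_mem_IC {s : ℕ} (w : ℤ) {a : Cob Laz s} (ha : a ∈ IC p h s) :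
    Cob.pr Laz s w a ∈ IC p h s := by
  induction h generalizing a with
  | zero =>
    have h0 : IC p 0 s = ⊥ := by
      rw [IC, Laz.I, Ih]
      simp
    rw [h0, Ideal.mem_bot] at ha ⊢
    rw [ha, map_zero]
  | succ h ih =>
    obtain ⟨y, hy, z, rfl⟩ := mem_IC_succ_iff.1 ha
    have h1 : Cob.pr Laz s w (z * MvPolynomial.C (Laz.v p h)) =
        Cob.pr Laz s (w - ((p ^ h : ℤ) - 1)) z * MvPolynomial.C (Laz.v p h) := by
      have h2 : ∀ v, ∀ z : Cob Laz s, Cob.IsWt v z →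
          Cob.pr Laz s w (z * MvPolynomial.C (Laz.v p h)) =
          Cob.pr Laz s (w - ((p ^ h : ℤ) - 1)) z * MvPolynomial.C (Laz.v p h) := by
        intro v z hz
        have h5 : Cob.IsWt (v + ((p ^ h : ℤ) - 1)) (z * MvPolynomial.C (Laz.v p h)) :=
          hz.mul (vw p h s).2
        rw [Cob.pr_of_isWt h5, Cob.pr_of_isWt hz]
        split_ifs with h3 h4 h4
        · rfl
        · omega
        · omega
        · rw [zero_mul]
      rw [← Cob.sum_pr z, Finset.sum_mul, map_sum, map_sum, Finset.sum_mul]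
      exact Finset.sum_congr rfl fun v _ => h2 v _ (Cob.isWt_pr v z)
    rw [map_add, h1]
    exact mem_IC_succ_iff.2 ⟨_, ih hy, _, rfl⟩

/-- **The cofibre step.** -/
theorem Cyc.step [Fact p.Prime] {N : ℤ} (hN : N = (p ^ h : ℤ) - 1)
    {x : (stdEven T).S N ⟶ V} (hx : Det D i x (hN ▸ vw p h 0)) {f : (stdEven T).S N ⊗ V ⟶ V}
    (hf : ((stdEven T).S N ◁ i) ≫ f = (ρ_ _).hom ≫ x) {V' : T} {j : V ⟶ V'}
    {δ : V' ⟶ ((stdEven T).S N ⊗ V)⟦(1 : ℤ)⟧} (hΔ : Triangle.mk f j δ ∈ distTriang T) :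
    Cyc D p (h + 1) (i ≫ j) := by
  have hfj : f ≫ j = 0 := comp_distTriang_mor_zero₁₂ _ hΔ
  have hred : ∀ A : T, (redC (i ≫ j)).app A = (redC i).app A ≫ (A ◁ j) := by
    intro A
    rw [redC_app, redC_app, MonoidalCategory.whiskerLeft_comp, Category.assoc]
  have hT := fun s => dist_whiskerLeft (Am D.R (s + 1)) hΔ
  -- the even groups of `A ⊗ V'`
  have hodd : ∀ (s : ℕ) (w : ℤ) (f' : (stdEven T).S w ⟶
      (Am D.R (s + 1) ⊗ ((stdEven T).S N ⊗ V))⟦(1 : ℤ)⟧), f' = 0 := by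
    intro s w f'
    rw [← cancel_epi (sI T w).inv, comp_zero]
    exact eq_zero_of_shift (2 * (w - 1) + 1) 1 (2 * w) (by ring)
      (fun g => H.odd_tw N s (w - 1) g) _
  constructor
  · intro s w f'
    obtain ⟨g, hg⟩ : ∃ g : (stdEven T).S w ⟶ Am D.R (s + 1) ⊗ V,
        f' = g ≫ (Am D.R (s + 1) ◁ j) := by
      refine Triangle.coyoneda_exact₃ _ (hT s) f' (hodd s w _)
    obtain ⟨z, rfl⟩ := H.surj s w g
    exact ⟨z, by rw [hg, hred, Category.assoc]⟩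
  · intro s w z
    rw [hred, ← Category.assoc]
    constructor
    · intro h0
      obtain ⟨g, hg⟩ : ∃ g : (stdEven T).S w ⟶ Am D.R (s + 1) ⊗ ((stdEven T).S N ⊗ V),
          D.evw s w z ≫ (redC i).app (Am D.R (s + 1)) = g ≫ (Am D.R (s + 1) ◁ f) :=
        Triangle.coyoneda_exact₂ _ (hT s) _ h0
      obtain ⟨z', hz'⟩ := H.image hN hx hf s w g
      have h1 : D.evw s w (z - mulv p h s (by rw [← hN]; ring) z') ≫
          (redC i).app (Am D.R (s + 1)) = 0 := by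
        rw [map_sub, Preadditive.sub_comp, hg, hz', sub_self]
      rw [H.ker] at h1
      exact mem_IC_succ_iff.2 ⟨_, h1, z'.1, by
        exact (sub_add_cancel z.1 (z'.1 * (vw p h s).1)).symm⟩
    · intro h0
      obtain ⟨y, hy, z', hz'⟩ := mem_IC_succ_iff.1 h0
      have h2 : Cob.pr Laz s w z.1 = z.1 := Cob.pr_eq_self z.2
      have h1 : Cob.pr Laz s w (z' * MvPolynomial.C (Laz.v p h)) =
          Cob.pr Laz s (w - N) z' * MvPolynomial.C (Laz.v p h) := by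
        rw [hN]
        have h2 : ∀ v, ∀ z : Cob Laz s, Cob.IsWt v z →
            Cob.pr Laz s w (z * MvPolynomial.C (Laz.v p h)) =
            Cob.pr Laz s (w - ((p ^ h : ℤ) - 1)) z * MvPolynomial.C (Laz.v p h) := by
          intro v z hz
          have h5 : Cob.IsWt (v + ((p ^ h : ℤ) - 1)) (z * MvPolynomial.C (Laz.v p h)) :=
            hz.mul (vw p h s).2
          rw [Cob.pr_of_isWt h5, Cob.pr_of_isWt hz]
          split_ifs with h3 h4 h4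
          · rfl
          · omega
          · omega
          · rw [zero_mul]
        rw [← Cob.sum_pr z', Finset.sum_mul, map_sum, map_sum, Finset.sum_mul]
        exact Finset.sum_congr rfl fun v _ => h2 v _ (Cob.isWt_pr v z')
      have h3 : z = (⟨Cob.pr Laz s w y, Cob.isWt_pr w y⟩ : Cob.wt Laz s w) +
          mulv p h s (by rw [← hN]; ring)
            (⟨Cob.pr Laz s (w - N) z', Cob.isWt_pr _ _⟩ : Cob.wt Laz s (w - N)) := by
        apply Subtype.ext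
        change z.1 = Cob.pr Laz s w y + Cob.pr Laz s (w - N) z' * _
        rw [← h2, hz', map_add, h1]
        rfl
      have h4 : D.evw s w (⟨Cob.pr Laz s w y, Cob.isWt_pr w y⟩ : Cob.wt Laz s w) ≫
          (redC i).app (Am D.R (s + 1)) = 0 := (H.ker s w _).2 (pr_mem_IC w hy)
      have h5 := tw_evw hN hx hf s (show N + (w - N) = w by ring)
        (⟨Cob.pr Laz s (w - N) z', Cob.isWt_pr _ _⟩ : Cob.wt Laz s (w - N))
      rw [h3, map_add, Preadditive.add_comp, h4, zero_add, ← h5, Category.assoc, Category.assoc,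
        ← MonoidalCategory.whiskerLeft_comp, hfj]
      simp
  · intro s k f'
    have hA : f' ≫ (Am D.R (s + 1) ◁ δ) ≫ ((tensorLeft (Am D.R (s + 1))).commShiftIso
        (1 : ℤ)).hom.app ((stdEven T).S N ⊗ V) = 0 := by
      have h1 : (f' ≫ (Am D.R (s + 1) ◁ δ) ≫ ((tensorLeft (Am D.R (s + 1))).commShiftIso
        (1 : ℤ)).hom.app ((stdEven T).S N ⊗ V)) ≫ (Am D.R (s + 1) ◁ f)⟦(1 : ℤ)⟧' = 0 := by
        rw [Category.assoc]
        have := comp_distTriang_mor_zero₃₁ _ (hT s)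
        change ((Am D.R (s + 1) ◁ δ) ≫ ((tensorLeft (Am D.R (s + 1))).commShiftIso
          (1 : ℤ)).hom.app ((stdEven T).S N ⊗ V)) ≫ (Am D.R (s + 1) ◁ f)⟦(1 : ℤ)⟧' = 0 at this
        rw [this, comp_zero]
      generalize f' ≫ (Am D.R (s + 1) ◁ δ) ≫ ((tensorLeft (Am D.R (s + 1))).commShiftIso
        (1 : ℤ)).hom.app ((stdEven T).S N ⊗ V) = g at h1
      -- `g : 𝟙⟦2k+1⟧ ⟶ (A ⊗ (S ⊗ V))⟦1⟧`
      let e : (𝟙_ T)⟦(2 * k + 1 : ℤ)⟧ ≅ ((𝟙_ T)⟦(2 * k : ℤ)⟧)⟦(1 : ℤ)⟧ :=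
        (shiftFunctorAdd' T (2 * k) 1 (2 * k + 1) rfl).app (𝟙_ T)
      obtain ⟨g', hg'⟩ := (shiftFunctor T (1 : ℤ)).map_surjective (e.inv ≫ g)
      have h2 : g' ≫ (Am D.R (s + 1) ◁ f) = 0 := by
        apply (shiftFunctor T (1 : ℤ)).map_injective
        rw [Functor.map_comp, hg', Category.assoc]
        erw [h1]
        rw [comp_zero, Functor.map_zero]
      have h3 : (sI T k).hom ≫ g' = 0 := H.regular hN hx hf s k _ (by
        rw [Category.assoc, h2, comp_zero])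
      have h4 : g' = 0 := by rw [← cancel_epi (sI T k).hom, h3, comp_zero]
      rw [← cancel_epi e.inv, ← hg', h4, Functor.map_zero, comp_zero]
    obtain ⟨g, hg⟩ : ∃ g : (𝟙_ T)⟦2 * k + 1⟧ ⟶ Am D.R (s + 1) ⊗ V,
        f' = g ≫ (Am D.R (s + 1) ◁ j) := Triangle.coyoneda_exact₃ _ (hT s) f' hA
    rw [hg, H.odd s k g, zero_comp]

end step

end Vale.Agent.P257.H314
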