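import Vale.Agent.P251.S.CobarE1
import Vale.Agent.P257.H314.Step
import Vale.Agent.P257.H314.FinCell

/-!
# P257, package TOP-1: the Adams spectral sequence of a cyclic spectrum

`AlgVan p h s w` : `H^s (Cob Laz / I_h)_w = 0`.

For `Cyc D p h i`, `i : 𝟙 ⟶ V`, `V` connective:

* `Cyc.van` : vanishing of the `E_2`-term of the tower `(U.tow 𝟙) ⊗ V`;
* `Cyc.pi_eq_zero` : `π_m V = 0` if all `H^s (Cob Laz / I_h)_w` with `2 w - s = m` vanish;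
* `Cyc.exists_det` : a cocycle `z ∈ H^0 (Cob Laz / I_h)_w` is detected by an element of `π_{2w} V`,
  if `H^{s+2} (Cob Laz / I_h)_{w'} = 0` for all `2 w' - (s + 2) = 2 w - 1`.
-/

open CategoryTheory MonoidalCategory Limits Pretriangulated MonObj

universe v u

set_option linter.unusedSectionVars false

namespace Vale.Agent.P257.H314

open Vale.Agent.P251 Vale.Agent.P251.T Vale.Agent.P251.M Vale.Agent.P251.S Vale.Agent.P251.F
open Vale.Agent.P251.M.EvenSpheres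

/-- `H^s (Cob Laz / I_h)_w = 0`. -/
def AlgVan (p h : ℕ) : ℕ → ℤ → Prop
  | 0, w => ∀ z : Cob Laz 0, Cob.IsWt w z → Cob.d 0 z ∈ IC p h 1 → z ∈ IC p h 0
  | s + 1, w => ∀ z : Cob Laz (s + 1), Cob.IsWt w z → Cob.d (s + 1) z ∈ IC p h (s + 2) →
      ∃ y : Cob Laz s, Cob.IsWt w y ∧ z - Cob.d s y ∈ IC p h (s + 1)

variable {T : Type u} [Category.{v} T] [Preadditive T] [HasZeroObject T]
    [HasShift T ℤ] [∀ n : ℤ, (shiftFunctor T n).Additive] [Pretriangulated T]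
    [MonoidalCategory T] [SymmetricCategory T] [TensorTriangulated T] [HasCoproducts.{0} T]
    {D : I.MUData T} (U : UnitCof D.R)

section

variable {p h : ℕ} {V : T} {i : 𝟙_ T ⟶ V} (H : Cyc D p h i)

lemma redC_qAm (n : ℕ) :
    (redC i).app (U.cobar.Q n (𝟙_ T)) ≫ ((D.qAm U n).hom ▷ V) =
      (D.qAm U n).hom ≫ (redC i).app (Am D.R n) :=
  ((redC i).naturality (D.qAm U n).hom).symm

include H

theorem Cyc.phi_surj (s : ℕ) (w : ℤ)
    (f : (stdEven T).S w ⟶ U.cobar.Q (s + 1) (𝟙_ T) ⊗ V) :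
    ∃ z : Cob.wt Laz s w, f = D.phi U s w z ≫ (redC i).app _ := by
  obtain ⟨z, hz⟩ := H.surj s w (f ≫ ((D.qAm U (s + 1)).hom ▷ V))
  refine ⟨z, ?_⟩
  rw [← cancel_mono ((D.qAm U (s + 1)).hom ▷ V), hz, Category.assoc, redC_qAm (i := i) U (s + 1),
    I.MUData.phi_apply, Category.assoc, Iso.inv_hom_id_assoc]

theorem Cyc.phi_ker (s : ℕ) (w : ℤ) (z : Cob.wt Laz s w) :
    D.phi U s w z ≫ (redC i).app _ = 0 ↔ z.1 ∈ IC p h s := by
  rw [← H.ker s w z, ← cancel_mono ((D.qAm U (s + 1)).hom ▷ V), zero_comp, Category.assoc,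
    redC_qAm (i := i) U (s + 1), I.MUData.phi_apply, Category.assoc, Iso.inv_hom_id_assoc]

theorem Cyc.phi_odd (s : ℕ) (k : ℤ) (f : (𝟙_ T)⟦2 * k + 1⟧ ⟶ U.cobar.Q (s + 1) (𝟙_ T) ⊗ V) :
    f = 0 := by
  rw [← cancel_mono ((D.qAm U (s + 1)).hom ▷ V), zero_comp]
  exact H.odd s k _

omit H in
lemma redC_d (n : ℕ) : U.cobar.d n (𝟙_ T) ≫ (redC i).app _ =
    (redC i).app _ ≫ (U.cobar.d n (𝟙_ T) ▷ V) := (redC i).naturality _

/-- cocycles of the cobar complex of `V` -/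
theorem Cyc.cocycle_iff (s : ℕ) (w : ℤ) (z : Cob.wt Laz s w) :
    (D.phi U s w z ≫ (redC i).app _) ≫ (U.cobar.d (s + 1) (𝟙_ T) ▷ V) = 0 ↔
      Cob.d s z.1 ∈ IC p h (s + 1) := by
  rw [← Cob.coe_dwt, ← H.phi_ker U (s + 1) w, I.MUData.phi_d, Category.assoc, Category.assoc,
    redC_d (i := i) U (s + 1)]

/-- Exactness of the cobar complex of `V` from `AlgVan`. -/
theorem Cyc.exact {s : ℕ} {t : ℤ} (hA : ∀ w, 2 * w = t → AlgVan p h (s + 1) w)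
    (c : (𝟙_ T)⟦t⟧ ⟶ U.cobar.Q (s + 2) (𝟙_ T) ⊗ V)
    (hc : c ≫ (U.cobar.d (s + 2) (𝟙_ T) ▷ V) = 0) :
    ∃ c' : (𝟙_ T)⟦t⟧ ⟶ U.cobar.Q (s + 1) (𝟙_ T) ⊗ V,
      c' ≫ (U.cobar.d (s + 1) (𝟙_ T) ▷ V) = c := by
  rcases Int.even_or_odd' t with ⟨w, rfl | rfl⟩
  · obtain ⟨z, hz⟩ := H.phi_surj U (s + 1) w ((sI T w).hom ≫ c)
    have h1 : Cob.d (s + 1) z.1 ∈ IC p h (s + 2) := by
      rw [← H.cocycle_iff U (s + 1) w z, ← hz, Category.assoc, hc, comp_zero]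
    obtain ⟨y, hy, hyz⟩ := hA w rfl z.1 z.2 h1
    refine ⟨(sI T w).inv ≫ D.phi U s w ⟨y, hy⟩ ≫ (redC i).app _, ?_⟩
    rw [Category.assoc, Iso.inv_comp_eq, hz, Category.assoc, ← redC_d (i := i) U (s + 1),
      ← Category.assoc, ← I.MUData.phi_d, ← sub_eq_zero, ← Preadditive.sub_comp, ← map_sub, H.phi_ker,
      ← neg_mem_iff]
    convert hyz using 1
    rw [AddSubgroup.coe_sub, Cob.coe_dwt, neg_sub]
  · exact ⟨0, by rw [zero_comp, H.phi_odd U _ w c]⟩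

/-- Vanishing of the `E_2`-term. -/
theorem Cyc.van {s : ℕ} {m t : ℤ} (hm : m + ((s + 1 : ℕ) : ℤ) = t)
    (hA : ∀ w, 2 * w = t → AlgVan p h (s + 1) w) :
    (((U.tow (𝟙_ T)).map (tensorRight V)).couple (𝟙_ T)).Van s m :=
  U.van_of_exact (𝟙_ T) (tensorRight V) (𝟙_ T) hm fun c hc => H.exact U hA c hc

/-- `E_2^0`: cocycles of filtration `0` vanish if `H^0` vanishes. -/
theorem Cyc.cocycle_zero {m : ℤ} (hA : ∀ w, 2 * w = m → AlgVan p h 0 w)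
    (b : (((U.tow (𝟙_ T)).map (tensorRight V)).couple (𝟙_ T)).E 0 m)
    (hb : (((U.tow (𝟙_ T)).map (tensorRight V)).couple (𝟙_ T)).IsCocycle b) : b = 0 := by
  have h0 : m + ((0 : ℕ) : ℤ) = m := by simp
  obtain ⟨c, hc, rfl⟩ := U.exists_cocycle_qE (𝟙_ T) (tensorRight V) (𝟙_ T) h0 b hb
  have : c = 0 := by
    rcases Int.even_or_odd' m with ⟨w, rfl | rfl⟩
    · obtain ⟨z, hz⟩ := H.phi_surj U 0 w ((sI T w).hom ≫ c)
      have h1 : Cob.d 0 z.1 ∈ IC p h 1 := by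
        rw [← H.cocycle_iff U 0 w z, ← hz, Category.assoc]
        refine (congrArg _ hc).trans comp_zero
      have h2 := hA w rfl z.1 z.2 h1
      rw [← H.phi_ker U 0 w z, ← hz] at h2
      rw [← cancel_epi (sI T w).hom, h2, comp_zero]
    · exact H.phi_odd U 0 w c
  rw [this, map_zero]

end

section Conn

variable [MonoidalClosed T]

lemma bigCell_B (s : ℕ) {n : ℤ} {Y : T} (hY : BigCell T n Y) (q : ℤ) (hq : 2 * s + n = q) :
    BigCell T q (U.cobar.B s Y) := by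
  induction s generalizing n Y q with
  | zero =>
    obtain rfl : n = q := by simpa using hq
    exact hY
  | succ s ih =>
    exact ih (BigCell.tensor (D.conn U.J U.ρ U.δ U.dist) hY (2 + n) rfl) q
      (by push_cast at hq; omega)

lemma bigCell_unit : BigCell T 0 (𝟙_ T) :=
  BigCell.of_iso ((shiftFunctorZero T ℤ).app (𝟙_ T)) (BigCell.sphere 0 le_rfl)

variable [IsTriangulated T] [HasProducts.{0} T] [StableCat T]

/-- Vanishing of the homotopy of the high stages of the tower. -/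
theorem D_eq_zero {V : T} (hV : BigCell T 0 V) {s : ℕ} {m : ℤ} (hm : m < s)
    (y : (((U.tow (𝟙_ T)).map (tensorRight V)).couple (𝟙_ T)).D s m) : y = 0 := by
  have h1 : BigCell T (2 * s) (U.cobar.B s (𝟙_ T)) := bigCell_B U s bigCell_unit _ (by ring)
  have h2 : BigCell T (2 * s) (U.cobar.B s (𝟙_ T) ⊗ V) := h1.tensor hV _ (by ring)
  have h3 : Conn (2 * (s : ℤ)) (U.cobar.B s (𝟙_ T) ⊗ V) :=
    h2.conn D.conn_unit fun Y k f => StableCat.compact k Y f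
  exact h3 (m + s) (by omega) y

variable {p h : ℕ} {V : T} {i : 𝟙_ T ⟶ V} (H : Cyc D p h i) (hV : BigCell T 0 V)

include H hV

/-- Vanishing of homotopy groups. -/
theorem Cyc.D_zero {m : ℤ} (hA : ∀ (s : ℕ) (w : ℤ), 2 * w = m + s → AlgVan p h s w)
    (y : (((U.tow (𝟙_ T)).map (tensorRight V)).couple (𝟙_ T)).D 0 m) : y = 0 := by
  have h1 := H.cocycle_zero U (m := m) (fun w hw => hA 0 w (by simpa using hw)) _
    (Couple.isCocycle_j _ y)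
  obtain ⟨y₁, rfl⟩ := Couple.exact_j _ _ _ _ h1
  obtain ⟨y', hy'⟩ := Couple.exists_iN_eq _ (s := 0) (m := m)
    (fun s' _ => H.van U rfl fun w hw => hA (s' + 1) w hw) y₁ (m.toNat + 1)
  rw [← hy', D_eq_zero U hV (by omega) y', map_zero]

/-- Vanishing of homotopy groups. -/
theorem Cyc.pi_eq_zero {m : ℤ} (hA : ∀ (s : ℕ) (w : ℤ), 2 * w = m + s → AlgVan p h s w)
    (f : (𝟙_ T)⟦m⟧ ⟶ V) : f = 0 := by
  obtain ⟨U⟩ := exists_unitCof D.R
  have h0 : m + ((0 : ℕ) : ℤ) = m := by simp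
  have h1 := H.D_zero U hV hA ((Tow.eD ((U.tow (𝟙_ T)).map (tensorRight V)) (𝟙_ T) h0).symm
    (f ≫ (λ_ V).inv))
  rw [AddEquiv.map_eq_zero_iff] at h1
  rw [← cancel_mono (λ_ V).inv, zero_comp]
  exact h1

omit [MonoidalClosed T] [IsTriangulated T] [HasProducts.{0} T] [StableCat T] H hV in
lemma unit_qAm : unitMap D.R (𝟙_ T) ≫ (D.qAm U 1).hom = (η[Am D.R 1] : 𝟙_ T ⟶ Am D.R 1) := by
  have h1 := D.d_qAm U 0
  rw [Fin.sum_univ_one, Fin.val_zero, pow_zero, one_smul] at h1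
  have h2 : (D.qAm U 0).hom = 𝟙 (𝟙_ T) := by
    change (λ_ (𝟙_ T)).inv ≫ (ρ_ (𝟙_ T)).hom = 𝟙 (𝟙_ T)
    rw [← unitors_equal, Iso.inv_hom_id]
  have h3 : Am.map D.R (Fin.succAbove (0 : Fin 1) : Fin 0 → Fin 1) = η[Am D.R 1] :=
    Am.hom_ext fun i => i.elim0
  rw [h2, h3] at h1
  exact h1.trans (Category.id_comp _)

omit [MonoidalClosed T] [IsTriangulated T] [HasProducts.{0} T] [StableCat T] H hV in
/-- `Det` in terms of the tower. -/
lemma det_iff {w : ℤ} (z : Cob.wt Laz 0 w) (y : (stdEven T).S w ⟶ 𝟙_ T ⊗ V) :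
    Det D i (y ≫ (λ_ V).hom) z ↔
      y ≫ (unitMap D.R (𝟙_ T) ▷ V) = D.phi U 0 w z ≫ (redC i).app (U.cobar.Q 1 (𝟙_ T)) := by
  have h1 : (λ_ V).hom ≫ unitMap (Am D.R 1) V =
      (unitMap D.R (𝟙_ T) ▷ V) ≫ ((D.qAm U 1).hom ▷ V) := by
    rw [← comp_whiskerRight, unit_qAm, unitMap, Iso.hom_inv_id_assoc]
  have h2 := redC_qAm (i := i) U 1
  rw [Det, Category.assoc, h1, ← cancel_mono ((D.qAm U 1).hom ▷ V), Category.assoc,
    Category.assoc, h2, I.MUData.phi_apply, Category.assoc, Iso.inv_hom_id_assoc]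

/-- The lifting lemma. -/
theorem Cyc.exists_det {w : ℤ} (z : Cob.wt Laz 0 w) (hz : Cob.d 0 z.1 ∈ IC p h 1)
    (hA : ∀ (s : ℕ) (w' : ℤ), 2 * w' = 2 * w - 1 + ((s + 2 : ℕ) : ℤ) → AlgVan p h (s + 2) w') :
    ∃ x : (stdEven T).S w ⟶ V, Det D i x z := by
  obtain ⟨U⟩ := exists_unitCof D.R
  have h0 : 2 * w + ((0 : ℕ) : ℤ) = 2 * w := by simp
  let c : (𝟙_ T)⟦(2 * w : ℤ)⟧ ⟶ U.cobar.Q 1 (𝟙_ T) ⊗ V :=
    (sI T w).inv ≫ D.phi U 0 w z ≫ (redC i).app (U.cobar.Q 1 (𝟙_ T))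
  have hc : c ≫ (U.cobar.d 1 (𝟙_ T) ▷ V) = 0 := by
    have := (H.cocycle_iff U 0 w z).2 hz
    rw [Category.assoc] at this ⊢
    rw [Category.assoc]
    refine (congrArg _ this).trans comp_zero
  have hb : (((U.tow (𝟙_ T)).map (tensorRight V)).couple (𝟙_ T)).IsCocycle
      (U.qE (𝟙_ T) (tensorRight V) (𝟙_ T) h0 c) := by
    intro m hm
    have h3 : m + ((0 + 1 : ℕ) : ℤ) = 2 * w := by push_cast; omega
    rw [U.d_qE (𝟙_ T) (tensorRight V) (𝟙_ T) hm h0 h3 c]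
    refine (congrArg _ hc).trans (map_zero _)
  obtain ⟨y, hy⟩ := Couple.exists_lift _ (show 2 * w = (2 * w - 1) + 1 by ring) _ hb
    (fun s' hs' => by
      obtain ⟨s, rfl⟩ : ∃ s, s' = s + 1 := ⟨s' - 1, by omega⟩
      exact H.van U rfl fun w' hw' => hA s w' hw') (2 * w).toNat
    (fun y => D_eq_zero U hV (by push_cast; omega) y)
  have h4 := congrArg (U.eT (𝟙_ T) (tensorRight V) (𝟙_ T) h0) hy
  rw [U.eT_qE] at h4
  have h5 := Tow.eE_j ((U.tow (𝟙_ T)).map (tensorRight V)) (𝟙_ T) h0 y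
  obtain ⟨y', h6⟩ : ∃ y' : (𝟙_ T)⟦(2 * w : ℤ)⟧ ⟶ 𝟙_ T ⊗ V,
      y' ≫ (unitMap D.R (𝟙_ T) ▷ V) = c := by
    refine ⟨Tow.eD ((U.tow (𝟙_ T)).map (tensorRight V)) (𝟙_ T) h0 y, ?_⟩
    refine h5.symm.trans (h4.trans ?_)
    rw [CobarData.q_zero, CategoryTheory.Functor.map_id]
    exact Category.comp_id c
  refine ⟨((sI T w).hom ≫ y') ≫ (λ_ V).hom, (det_iff U z _).2 ?_⟩
  rw [Category.assoc, h6]
  simp only [c, Iso.hom_inv_id_assoc]

end Conn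

end Vale.Agent.P257.H314
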