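import Vale.Agent.P257.H314.Desc
import Vale.Agent.P251.F.F3w

/-!
# P257, package TOP-1: sparseness and vanishing line for `Laz / I_h`

* `algVan_line` : `H^s (Cob Laz / I_h)_w = 0` unless `(p - 1) ∣ w` and `(p - 1) s ≤ w`;
* `liftVan_of`, `prodVan_of` : `LiftVan` and `ProdVan` from the sparse groups only.
-/

open CategoryTheory MonoidalCategory Limits Pretriangulated

universe v u

set_option linter.unusedSectionVars false

namespace Vale.Agent.P257.H314

open Vale.Agent.P251 Vale.Agent.P251.F Vale.Agent.P251.F.F3 LaurentPolynomial MvPowerSeries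

theorem noNeg_QI (p h : ℕ) [Fact p.Prime] : NoNeg (QI p h) := by
  intro a
  obtain ⟨b, rfl⟩ := Ideal.Quotient.mk_surjective a
  change Laz.lift ((InvSeries.lin (uT (QI p h)))⁻¹ • Laz.univ.map
    ((LaurentPolynomial.C : QI p h →+* (QI p h)[T;T⁻¹]).comp (Ideal.Quotient.mk _))) b ∈ _
  refine lift_mem _ (fun i j => ?_) b
  rw [F3.coeff_lin_inv_smul]
  have h1 : (Finsupp.single (0 : Fin 2) (i + 1) + Finsupp.single 1 (j + 1) : Fin 2 →₀ ℕ) 0 +
      (Finsupp.single (0 : Fin 2) (i + 1) + Finsupp.single 1 (j + 1) : Fin 2 →₀ ℕ) 1 =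
      1 + (i + j + 1) := by
    simp
    ring
  rw [h1, pow_add, pow_one, mul_assoc, ← mul_assoc, Units.inv_mul, one_mul]
  refine mul_mem (pow_mem ?_ _) ?_
  · refine ⟨Polynomial.X, ?_⟩
    exact Polynomial.toLaurent_X
  · refine ⟨Polynomial.C (Ideal.Quotient.mk _ (Laz.a i j)), ?_⟩
    rw [Polynomial.toLaurent_C, Law.map_ps, coeff_map, Laz.coeff_univ]
    rfl

/-- Sparseness and vanishing line. -/
theorem algVan_line {p h : ℕ} [Fact p.Prime] (hh : 1 ≤ h) {s : ℕ} {w : ℤ}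
    (hw : ¬ (((p : ℤ) - 1) ∣ w ∧ ((p : ℤ) - 1) * s ≤ w)) : AlgVan p h s w := by
  have hp1 : ((p - 1 : ℕ) : ℤ) = (p : ℤ) - 1 := by
    rw [Nat.cast_sub (Fact.out : p.Prime).one_le, Nat.cast_one]
  have hp0 : (p : QI p h) = 0 := by
    rw [← map_natCast (Ideal.Quotient.mk (Laz.I p h)), Ideal.Quotient.eq_zero_iff_mem]
    have := vv_mem_Ih (p := p) (h := h) (i := 0) (by omega) Laz.univ
    rwa [vv_zero] at this
  have hN : PNil p (QI p h) := ⟨by rw [hp0]; exact IsNilpotent.zero⟩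
  have hinj : PtsInj (QI p h) := LawRing.epi_quotient LawRing.epi_laz _ (invariant_I p h)
  by_cases h1 : ((p : ℤ) - 1) ∣ w
  · have h2 : w < ((p : ℤ) - 1) * s := by
      by_contra h3
      exact hw ⟨h1, not_lt.1 h3⟩
    cases s with
    | zero => exact algVan_neg (by simpa using h2)
    | succ s =>
      rw [algVan_succ_iff]
      intro c hc hdc
      exact exists_of_cocycle_of_small (p := p) hinj (noNeg_QI p h) hc hdc (by exact_mod_cast h2)
  · rw [← hp1] at h1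
    cases s with
    | zero =>
      rw [algVan_zero_iff]
      exact fun c hc hdc => eq_zero_of_cocycle (p := p) hinj h1 hc hdc
    | succ s =>
      rw [algVan_succ_iff]
      exact fun c hc hdc => exists_of_cocycle (p := p) hinj h1 hc hdc

/-- `W_a = 1 + p + ⋯ + p^{a-1}` -/
def Wn (p a : ℕ) : ℕ := ∑ i ∈ Finset.range a, p ^ i

lemma pow_eq_Wn (p a : ℕ) : (p : ℤ) ^ a = 1 + ((p : ℤ) - 1) * Wn p a := by
  have h := mul_geom_sum (p : ℤ) a
  rw [Wn]
  push_cast
  linarith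

/-- `LiftVan` from the sparse groups. -/
theorem liftVan_of {p h : ℕ} [Fact p.Prime] (hh : 1 ≤ h)
    (H : ∀ k : ℕ, 1 ≤ k → AlgVan p h (2 * (p - 1) * k + 1) (((p : ℤ) - 1) * (Wn p h + k))) :
    LiftVan p h := by
  intro s w hw
  by_cases h1 : ((p : ℤ) - 1) ∣ w
  · obtain ⟨c, rfl⟩ := h1
    have hp : 1 ≤ p := (Fact.out : p.Prime).one_le
    have h2 := pow_eq_Wn p h
    have hp' : (0 : ℤ) < (p : ℤ) - 1 := by
      have := (Fact.out : p.Prime).one_lt
      omega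
    -- `c = W_h + k`
    have h3 : 2 * (((p : ℤ) - 1) * (c - Wn p h)) = s + 1 := by
      rw [h2] at hw
      push_cast at hw
      linear_combination hw
    have h4 : 0 < c - Wn p h := by
      by_contra h5
      have : ((p : ℤ) - 1) * (c - Wn p h) ≤ 0 := by nlinarith
      omega
    obtain ⟨k, hk⟩ : ∃ k : ℕ, c - Wn p h = k := ⟨(c - Wn p h).toNat, by omega⟩
    have h6 : s + 2 = 2 * (p - 1) * k + 1 := by
      rw [hk] at h3
      zify [hp]
      linarith
    have h7 := H k (by omega)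
    rw [h6]
    have h8 : c = Wn p h + k := by omega
    rwa [h8]
  · exact algVan_line hh fun h => h1 h.1

lemma dA_eq (p : ℕ) (A : Finset ℕ) :
    dA p A = A.card + 2 * (((p : ℤ) - 1) * ∑ a ∈ A, (Wn p a : ℤ)) := by
  rw [dA, Finset.mul_sum, Finset.mul_sum, Finset.card_eq_sum_ones, Nat.cast_sum,
    ← Finset.sum_add_distrib]
  refine Finset.sum_congr rfl fun a _ => ?_
  rw [pow_eq_Wn p a]
  push_cast
  ring

/-- `ProdVan` from the sparse groups. -/
theorem prodVan_of {p h : ℕ} [Fact p.Prime] (hh : 1 ≤ h)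
    (H : ∀ A B : Finset ℕ, A ⊆ Finset.range h → B ⊆ Finset.range h → A.Nonempty → B.Nonempty →
      ∀ k : ℕ, 1 ≤ k → ∀ s : ℕ, s + (A.card + B.card - 1) = 2 * (p - 1) * k →
        AlgVan p h s (((p : ℤ) - 1) * (∑ a ∈ A, (Wn p a : ℤ) + ∑ b ∈ B, (Wn p b : ℤ) + k))) :
    ProdVan p h := by
  intro A B hA hB hA' hB' s w hw
  by_cases h1 : ((p : ℤ) - 1) ∣ w
  · obtain ⟨c, rfl⟩ := h1
    have hp : 1 ≤ p := (Fact.out : p.Prime).one_le
    have hp' : (0 : ℤ) < (p : ℤ) - 1 := by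
      have := (Fact.out : p.Prime).one_lt
      omega
    have hA1 := hA'.card_pos
    have hB1 := hB'.card_pos
    rw [dA_eq, dA_eq] at hw
    have h3 : 2 * (((p : ℤ) - 1) * (c - (∑ a ∈ A, (Wn p a : ℤ) + ∑ b ∈ B, (Wn p b : ℤ)))) =
        s + (A.card + B.card - 1 : ℕ) := by
      rw [Nat.cast_sub (by omega)]
      push_cast
      linear_combination hw
    have h4 : 0 < c - (∑ a ∈ A, (Wn p a : ℤ) + ∑ b ∈ B, (Wn p b : ℤ)) := by
      by_contra h5
      have : ((p : ℤ) - 1) * (c - (∑ a ∈ A, (Wn p a : ℤ) + ∑ b ∈ B, (Wn p b : ℤ))) ≤ 0 := by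
        nlinarith
      omega
    obtain ⟨k, hk⟩ : ∃ k : ℕ, c - (∑ a ∈ A, (Wn p a : ℤ) + ∑ b ∈ B, (Wn p b : ℤ)) = k :=
      ⟨(c - (∑ a ∈ A, (Wn p a : ℤ) + ∑ b ∈ B, (Wn p b : ℤ))).toNat, by omega⟩
    have h6 : s + (A.card + B.card - 1) = 2 * (p - 1) * k := by
      rw [hk] at h3
      zify [hp]
      linarith
    have h7 := H A B hA hB hA' hB' k (by omega) s h6
    have h8 : c = ∑ a ∈ A, (Wn p a : ℤ) + ∑ b ∈ B, (Wn p b : ℤ) + k := by omega
    rwa [h8]
  · exact algVan_line hh fun h => h1 h.1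

end Vale.Agent.P257.H314
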