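import Vale.Agent.P257.H712.Bridge
import Vale.Agent.P257.H314.Inf
import Vale.Agent.P257.H314.Cup

/-!
# P257 (helper314): transport of `AlgOnto`

* `OntoInf` : surjectivity of `b^(K+1)` on the cohomology of `Cob (Laz / I_∞)`;
* `algOnto_of_ontoInf` : from `Laz / I_∞` to `Laz / I_h` in weights `< p ^ h - 1`;
* `algOnto_of_succ` : from `Laz / I_{h+1}` to `Laz / I_h`.
-/

universe v u

set_option linter.unusedSectionVars false

namespace Vale.Agent.P257.H314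

open Vale.Agent.P251 Vale.Agent.P251.T Vale.Agent.P251.M Vale.Agent.P251.F
open Vale.Agent.P251.S hiding IC
open Vale.Agent.P257.H712 (cupN cupN_succ cupN_isWt mapRing_cupN AlgOnto)

/-- Iterated cup products of cocycles are cocycles. -/
theorem d_cupN_eq_zero {N : Type} [CommRing N] [LawRing N] {s : ℕ} {c : Cob N s} {b : Cob N 2}
    (hc : Cob.d s c = 0) (hb : Cob.d 2 b = 0) (K : ℕ) : Cob.d (s + 2 * K) (cupN c b K) = 0 := by
  induction K with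
  | zero => exact hc
  | succ K ih => exact d_cup_eq_zero (a := s + 2 * K) (b := 2) ih hb

theorem d_cupN_mem {p h : ℕ} [Fact p.Prime] {s : ℕ} {c : Cob Laz s} {b : Cob Laz 2}
    (hc : Cob.d s c ∈ IC p h (s + 1)) (hb : Cob.d 2 b ∈ IC p h 3) (K : ℕ) :
    Cob.d (s + 2 * K) (cupN c b K) ∈ IC p h (s + 2 * K + 1) := by
  rw [← mapRing_eq_zero_iff, Cob.mapRing_d (isLawHom_mkI p h)] at hc hb ⊢
  rw [mapRing_cupN (isLawHom_mkI p h)]
  exact d_cupN_eq_zero hc hb K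

/-- Multiplication by `b^(K+1)` (on the right) from degree `s` and weight `w` is onto on the
cohomology of `Cob (Laz / I_∞)`; `v` is the weight of `b`. -/
def OntoInf (p : ℕ) [Fact p.Prime] (b : Cob (QIinf p) 2) (v : ℤ) (s : ℕ) (w : ℤ) (K : ℕ) : Prop :=
  ∀ c : Cob (QIinf p) (s + 2 * (K + 1)), Cob.IsWt (Couple.Mul2.deg v w (K + 1)) c →
    Cob.d (s + 2 * (K + 1)) c = 0 →
    ∃ (c₀ : Cob (QIinf p) s) (e : Cob (QIinf p) (s + 2 * K + 1)), Cob.IsWt w c₀ ∧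
      Cob.IsWt (Couple.Mul2.deg v w (K + 1)) e ∧ Cob.d s c₀ = 0 ∧
      c - cupN c₀ b (K + 1) = Cob.d (s + 2 * K + 1) e

variable {p h : ℕ} [Fact p.Prime] {b : Cob Laz 2} {v : ℤ} {s : ℕ} {w : ℤ} {K : ℕ}

/-- From `Laz / I_∞` to `Laz / I_h`. -/
theorem algOnto_of_ontoInf (hb : Cob.IsWt v b) (hw : w < (p : ℤ) ^ h - 1)
    (hv : Couple.Mul2.deg v w (K + 1) < (p : ℤ) ^ h - 1)
    (H : OntoInf p (Cob.mapRing (Ideal.Quotient.mk (Iinf p)) 2 b) v s w K) :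
    AlgOnto p h b v s w K := by
  intro c hc hdc
  have hm := isLawHom_mkInf p
  obtain ⟨c₀, e, hc₀, he, hdc₀, heq⟩ := H (Cob.mapRing (Ideal.Quotient.mk (Iinf p)) _ c)
    (hc.mapRing hm) (by
      rw [← Cob.mapRing_d hm, mapRing_inf_eq_zero_iff_of_lt hv hc.d]
      exact hdc)
  obtain ⟨c₀', rfl⟩ := exists_lift_wt_inf hc₀
  obtain ⟨e', rfl⟩ := exists_lift_wt_inf he
  refine ⟨c₀'.1, e'.1, c₀'.2, e'.2, ?_, ?_⟩
  · rwa [← Cob.mapRing_d hm, mapRing_inf_eq_zero_iff_of_lt hw (Cob.IsWt.d c₀'.2)] at hdc₀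
  · have h1 : Cob.IsWt (Couple.Mul2.deg v w (K + 1)) (cupN c₀'.1 b (K + 1)) :=
      cupN_isWt c₀'.2 hb (K + 1)
    have h2 : Cob.IsWt (Couple.Mul2.deg v w (K + 1))
        (c - cupN c₀'.1 b (K + 1) - Cob.d (s + 2 * K + 1) e'.1) :=
      (Cob.wt Laz _ _).sub_mem ((Cob.wt Laz _ _).sub_mem hc h1) (Cob.IsWt.d e'.2)
    refine (mapRing_inf_eq_zero_iff_of_lt hv h2).1 ?_
    rw [map_sub, map_sub, mapRing_cupN hm]
    exact sub_eq_zero.2 (heq.trans (Cob.mapRing_d hm _).symm)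

/-- From `Laz / I_{h+1}` to `Laz / I_h`. -/
theorem algOnto_of_succ (hb : Cob.IsWt v b) (hdb : Cob.d 2 b ∈ IC p h 3)
    (hw : w < (p : ℤ) ^ h - 1) (H : AlgOnto p (h + 1) b v s w K)
    (hV : AlgVan p h (s + 2 * (K + 1)) (Couple.Mul2.deg v w (K + 1) - ((p : ℤ) ^ h - 1))) :
    AlgOnto p h b v s w K := by
  intro c hc hdc
  obtain ⟨c₀, e, hc₀, he, hdc₀, heq⟩ := H c hc (IC_mono hdc)
  have hdc₀' : Cob.d s c₀ ∈ IC p h (s + 1) := mem_IC_of_mem_IC (Nat.le_succ h) hw hc₀.d hdc₀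
  have h1 : Cob.IsWt (Couple.Mul2.deg v w (K + 1)) (cupN c₀ b (K + 1)) := cupN_isWt hc₀ hb (K + 1)
  have h2 : Cob.IsWt (Couple.Mul2.deg v w (K + 1))
      (c - cupN c₀ b (K + 1) - Cob.d (s + 2 * K + 1) e) :=
    (Cob.wt Laz _ _).sub_mem ((Cob.wt Laz _ _).sub_mem hc h1) he.d
  have h3 : Cob.d (s + 2 * (K + 1)) (c - cupN c₀ b (K + 1) - Cob.d (s + 2 * K + 1) e) ∈
      IC p h (s + 2 * (K + 1) + 1) := by
    rw [map_sub, map_sub]
    refine sub_mem (sub_mem hdc (d_cupN_mem hdc₀' hdb (K + 1))) ?_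
    have : Cob.d (s + 2 * (K + 1)) (Cob.d (s + 2 * K + 1) e) = 0 := Cob.d_d e
    rw [this]
    exact zero_mem _
  obtain ⟨y, hy, hzy⟩ := exists_of_mem_succ h2 heq
  have h5 : Cob.d (s + 2 * (K + 1)) y * MvPolynomial.C (Laz.v p h) ∈
      IC p h (s + 2 * (K + 1) + 1) := by
    have h4 := sub_mem (sub_mem h3 (d_mem_IC hzy)) (d_mul_v_sub_mem (p := p) (h := h) y)
    rw [map_sub _ _ (y * MvPolynomial.C (Laz.v p h))] at h4
    convert h4 using 1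
    abel
  have h6 : Cob.d (s + 2 * (K + 1)) y ∈ IC p h (s + 2 * (K + 1) + 1) := by
    apply mem_map_C_I_of_v_mul p le_rfl
    rw [mul_comm (MvPolynomial.C (Laz.v p h))]
    exact h5
  obtain ⟨y', hy', hyy⟩ := hV y hy h6
  refine ⟨c₀, e + y' * MvPolynomial.C (Laz.v p h), hc₀, he.add ?_, hdc₀', ?_⟩
  · have := hy'.mul (vw p h (s + 2 * K + 1)).2
    rwa [sub_add_cancel] at this
  · have h7 := sub_mem (add_mem hzy (Ideal.mul_mem_right (MvPolynomial.C (Laz.v p h)) _ hyy))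
      (d_mul_v_sub_mem (p := p) (h := h) y')
    rw [sub_mul] at h7
    rw [map_add]
    convert h7 using 1
    simp only [sub_eq_add_neg, neg_add, neg_neg]
    abel

end Vale.Agent.P257.H314
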