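import Vale.Agent.P257.H314.E2
import Vale.Agent.P251.F.LawHom

/-!
# P257, package TOP-1: the law ring `Laz / I_h`

`QI p h = Laz / I_h` with its structure of a law ring; `AlgVan` in terms of `Cob (QI p h)`.
-/

open CategoryTheory MonoidalCategory Limits Pretriangulated

universe v u

set_option linter.unusedSectionVars false

namespace Vale.Agent.P257.H314

open Vale.Agent.P251 Vale.Agent.P251.T Vale.Agent.P251.M Vale.Agent.P251.S Vale.Agent.P251.F

variable (p h : ℕ)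

theorem invariant_I [Fact p.Prime] : LawRing.Invariant (Laz.I p h) := by
  intro B _ f x hx
  have h1 : ∀ x : Laz →+* B, (∀ a ∈ Laz.I p h, x a = 0) ↔ Ih p h (Laz.univ.map x) = ⊥ := by
    intro x
    have h2 : (∀ a ∈ Laz.I p h, x a = 0) ↔ Laz.I p h ≤ RingHom.ker x := Iff.rfl
    rw [h2, ← Laz.I_map, Ideal.map_eq_bot_iff_le_ker]
  rw [h1] at hx ⊢
  have h3 : Laz.univ.map (LawRing.act f x) = f • Laz.univ.map x := LawRing.law_act f x
  rw [h3, Ih_smul, hx]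

/-- `Laz / I_h`. -/
abbrev QI : Type := Laz ⧸ Laz.I p h

noncomputable instance instLawRingQI [Fact p.Prime] : LawRing (QI p h) :=
  LawRing.quotient _ (invariant_I p h)

theorem isLawHom_mkI [Fact p.Prime] : IsLawHom (Ideal.Quotient.mk (Laz.I p h)) :=
  IsLawHom.of_epi LawRing.epi_laz rfl

variable {p h}

theorem mapRing_eq_zero_iff {s : ℕ} (z : Cob Laz s) :
    Cob.mapRing (Ideal.Quotient.mk (Laz.I p h)) s z = 0 ↔ z ∈ IC p h s := by
  rw [Cob.mapRing, ← RingHom.mem_ker, MvPolynomial.ker_map, Ideal.mk_ker]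

theorem exists_lift_wt [Fact p.Prime] {s : ℕ} {w : ℤ} {z : Cob (QI p h) s} (hz : Cob.IsWt w z) :
    ∃ z' : Cob.wt Laz s w, Cob.mapRing (Ideal.Quotient.mk (Laz.I p h)) s z'.1 = z := by
  obtain ⟨y, rfl⟩ := Cob.mapRing_surjective (n := s) (Ideal.Quotient.mk_surjective (I := Laz.I p h)) z
  refine ⟨⟨Cob.pr Laz s w y, Cob.isWt_pr w y⟩, ?_⟩
  have h1 := Cob.pr_comm (Cob.mapRing (Ideal.Quotient.mk (Laz.I p h)) s).toAddMonoidHom
    (fun w x hx => hx.mapRing (isLawHom_mkI p h)) w y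
  change Cob.pr (QI p h) s w (Cob.mapRing _ s y) = Cob.mapRing _ s (Cob.pr Laz s w y) at h1
  rw [← h1, Cob.pr_eq_self hz]

/-- `AlgVan` in terms of `Cob (Laz / I_h)`. -/
theorem algVan_succ_iff [Fact p.Prime] {s : ℕ} {w : ℤ} : AlgVan p h (s + 1) w ↔
    ∀ c : Cob (QI p h) (s + 1), Cob.IsWt w c → Cob.d (s + 1) c = 0 →
      ∃ c' : Cob (QI p h) s, Cob.IsWt w c' ∧ Cob.d s c' = c := by
  constructor
  · intro H c hc hdc
    obtain ⟨z, rfl⟩ := exists_lift_wt hc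
    rw [← Cob.mapRing_d (isLawHom_mkI p h), mapRing_eq_zero_iff] at hdc
    obtain ⟨y, hy, hyz⟩ := H z.1 z.2 hdc
    refine ⟨Cob.mapRing (Ideal.Quotient.mk (Laz.I p h)) s y, hy.mapRing (isLawHom_mkI p h), ?_⟩
    rw [← mapRing_eq_zero_iff, map_sub, sub_eq_zero, Cob.mapRing_d (isLawHom_mkI p h)] at hyz
    exact hyz.symm
  · intro H z hz hdz
    rw [← mapRing_eq_zero_iff, Cob.mapRing_d (isLawHom_mkI p h)] at hdz
    obtain ⟨c', hc', hcz⟩ := H _ (hz.mapRing (isLawHom_mkI p h)) hdz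
    obtain ⟨y, rfl⟩ := exists_lift_wt hc'
    refine ⟨y.1, y.2, ?_⟩
    rw [← mapRing_eq_zero_iff, map_sub, sub_eq_zero, Cob.mapRing_d (isLawHom_mkI p h), hcz]

theorem algVan_zero_iff [Fact p.Prime] {w : ℤ} : AlgVan p h 0 w ↔
    ∀ c : Cob (QI p h) 0, Cob.IsWt w c → Cob.d 0 c = 0 → c = 0 := by
  constructor
  · intro H c hc hdc
    obtain ⟨z, rfl⟩ := exists_lift_wt hc
    rw [← Cob.mapRing_d (isLawHom_mkI p h), mapRing_eq_zero_iff] at hdc
    exact (mapRing_eq_zero_iff _).2 (H z.1 z.2 hdc)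
  · intro H z hz hdz
    rw [← mapRing_eq_zero_iff, Cob.mapRing_d (isLawHom_mkI p h)] at hdz
    exact (mapRing_eq_zero_iff _).1 (H _ (hz.mapRing (isLawHom_mkI p h)) hdz)

end Vale.Agent.P257.H314
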