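import Vale.Agent.P257.H314.Line

/-!
# P257, package TOP-1: reduction to the stable range

`StabVan p s W` : `H^s (Cob Laz / I_{h'})_{(p-1) W} = 0` for all `h'` with `(p - 1) W < p^{h'} - 1`
(equivalently, the cohomology of the dual reduced powers vanishes in degree `(s, W)`).

* `algVan_of_stab` : vanishing for `Laz / I_h` in all weights from `StabVan`;
* `liftVan_of_stab`, `prodVan_of_stab`.
-/

universe v u

set_option linter.unusedSectionVars false

namespace Vale.Agent.P257.H314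

open Vale.Agent.P251 Vale.Agent.P251.F

/-- Vanishing in the stable range. -/
def StabVan (p s : ℕ) (W : ℤ) : Prop :=
  ∀ h : ℕ, 1 ≤ h → ((p : ℤ) - 1) * W < (p : ℤ) ^ h - 1 → AlgVan p h s (((p : ℤ) - 1) * W)

lemma Wn_mono (p : ℕ) {a b : ℕ} (h : a ≤ b) : Wn p a ≤ Wn p b :=
  Finset.sum_le_sum_of_subset (Finset.range_subset_range.2 h)

lemma one_le_Wn (p : ℕ) {a : ℕ} (h : 1 ≤ a) : 1 ≤ Wn p a := by
  have := Wn_mono p h
  simpa [Wn] using this

lemma le_Wn (p : ℕ) [Fact p.Prime] (a : ℕ) : a ≤ Wn p a := by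
  have h : ∑ i ∈ Finset.range a, 1 ≤ Wn p a :=
    Finset.sum_le_sum fun i _ => Nat.one_le_pow _ _ (Fact.out : p.Prime).pos
  simpa using h

theorem algVan_of_stab {p h : ℕ} [Fact p.Prime] (hh : 1 ≤ h) {s : ℕ} {W : ℤ}
    (H : ∀ (k : ℕ) (e : ℕ → ℕ), (s : ℤ) ≤ W - ∑ i ∈ Finset.range k, (e i : ℤ) * Wn p (h + i) →
      StabVan p s (W - ∑ i ∈ Finset.range k, (e i : ℤ) * Wn p (h + i))) :
    AlgVan p h s (((p : ℤ) - 1) * W) := by
  have hp' : (0 : ℤ) < (p : ℤ) - 1 := by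
    have := (Fact.out : p.Prime).one_lt
    omega
  refine algVan_desc hh (W.toNat + 1) fun e he => ?_
  have h1 : ((p : ℤ) - 1) * W - ∑ i ∈ Finset.range (W.toNat + 1),
      (e i : ℤ) * ((p ^ (h + i) : ℤ) - 1) =
      ((p : ℤ) - 1) * (W - ∑ i ∈ Finset.range (W.toNat + 1), (e i : ℤ) * Wn p (h + i)) := by
    rw [mul_sub, Finset.mul_sum]
    congr 1
    refine Finset.sum_congr rfl fun i _ => ?_
    rw [pow_eq_Wn]
    ring
  rw [h1] at he ⊢
  by_cases h2 : (s : ℤ) ≤ W - ∑ i ∈ Finset.range (W.toNat + 1), (e i : ℤ) * Wn p (h + i)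
  · refine H _ e h2 _ (by omega) ?_
    rw [pow_eq_Wn, add_sub_cancel_left]
    refine (mul_lt_mul_iff_right₀ hp').2 ?_
    have h3 : (0 : ℤ) ≤ ∑ i ∈ Finset.range (W.toNat + 1), (e i : ℤ) * Wn p (h + i) := by positivity
    have h4 := le_Wn p (h + (W.toNat + 1))
    omega
  · refine algVan_line (by omega) ?_
    rintro ⟨-, h3⟩
    exact h2 (le_of_mul_le_mul_left h3 hp')

theorem liftVan_of_stab {p h : ℕ} [Fact p.Prime] (hh : 1 ≤ h)
    (H : ∀ k : ℕ, 1 ≤ k → StabVan p (2 * (p - 1) * k + 1) (Wn p h + k)) : LiftVan p h := by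
  refine liftVan_of hh fun k hk => algVan_of_stab hh fun n e he => ?_
  have hp : 2 ≤ p := (Fact.out : p.Prime).two_le
  by_cases h0 : ∀ i ∈ Finset.range n, e i = 0
  · have h1 : ∑ i ∈ Finset.range n, (e i : ℤ) * Wn p (h + i) = 0 :=
      Finset.sum_eq_zero fun i hi => by rw [h0 i hi]; simp
    rw [h1, sub_zero]
    exact H k hk
  · exfalso
    push Not at h0
    obtain ⟨i, hi, hi0⟩ := h0
    have h1 : ((e i : ℤ) * Wn p (h + i)) ≤ ∑ i ∈ Finset.range n, (e i : ℤ) * Wn p (h + i) :=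
      Finset.single_le_sum (f := fun i => (e i : ℤ) * Wn p (h + i))
        (fun j _ => by positivity) hi
    have h2 : Wn p h ≤ Wn p (h + i) := Wn_mono p (by omega)
    have h3 : (Wn p h : ℤ) ≤ (e i : ℤ) * Wn p (h + i) := by
      have h4 : Wn p h ≤ e i * Wn p (h + i) :=
        h2.trans (Nat.le_mul_of_pos_left _ (Nat.pos_of_ne_zero hi0))
      exact_mod_cast h4
    have h5 : k ≤ 2 * (p - 1) * k := Nat.le_mul_of_pos_left _ (by omega)
    have h6 : (((2 * (p - 1) * k + 1 : ℕ)) : ℤ) ≤ k := by linarith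
    have h7 : 2 * (p - 1) * k + 1 ≤ k := by exact_mod_cast h6
    omega

lemma two_sum_Wn_le (p : ℕ) (hp : 3 ≤ p) (h : ℕ) : 2 * ∑ a ∈ Finset.range h, Wn p a ≤ Wn p h := by
  induction h with
  | zero => simp
  | succ h ih =>
    have h1 : Wn p (h + 1) = Wn p h + p ^ h := by rw [Wn, Wn, Finset.sum_range_succ]
    have h2 : 2 * Wn p h ≤ p ^ h := by
      have h3 := pow_eq_Wn p h
      have h4 : (2 : ℤ) * Wn p h ≤ ((p : ℤ) - 1) * Wn p h := by
        have : (2 : ℤ) ≤ (p : ℤ) - 1 := by omega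
        exact mul_le_mul_of_nonneg_right this (by positivity)
      have h5 : (2 : ℤ) * Wn p h ≤ (p : ℤ) ^ h := by linarith
      exact_mod_cast h5
    rw [Finset.sum_range_succ, h1]
    omega

theorem prodVan_of_stab {p h : ℕ} [Fact p.Prime] (hh : 1 ≤ h) (hhp : h + 1 < p) (hp3 : 3 ≤ p)
    (H : ∀ A B : Finset ℕ, A ⊆ Finset.range h → B ⊆ Finset.range h → A.Nonempty → B.Nonempty →
      ∀ k : ℕ, 1 ≤ k → ∀ s : ℕ, s + (A.card + B.card - 1) = 2 * (p - 1) * k →
        StabVan p s (∑ a ∈ A, (Wn p a : ℤ) + ∑ b ∈ B, (Wn p b : ℤ) + k)) :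
    ProdVan p h := by
  refine prodVan_of hh fun A B hA hB hA' hB' k hk s hs => algVan_of_stab hh fun n e he => ?_
  by_cases h0 : ∀ i ∈ Finset.range n, e i = 0
  · have h1 : ∑ i ∈ Finset.range n, (e i : ℤ) * Wn p (h + i) = 0 :=
      Finset.sum_eq_zero fun i hi => by rw [h0 i hi]; simp
    rw [h1, sub_zero]
    exact H A B hA hB hA' hB' k hk s hs
  · exfalso
    push Not at h0
    obtain ⟨i, hi, hi0⟩ := h0
    have h1 : ((e i : ℤ) * Wn p (h + i)) ≤ ∑ i ∈ Finset.range n, (e i : ℤ) * Wn p (h + i) :=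
      Finset.single_le_sum (f := fun i => (e i : ℤ) * Wn p (h + i))
        (fun j _ => by positivity) hi
    have h2 : Wn p h ≤ Wn p (h + i) := Wn_mono p (by omega)
    have h3 : (Wn p h : ℤ) ≤ (e i : ℤ) * Wn p (h + i) := by
      have h4 : Wn p h ≤ e i * Wn p (h + i) :=
        h2.trans (Nat.le_mul_of_pos_left _ (Nat.pos_of_ne_zero hi0))
      exact_mod_cast h4
    have hsum : ∀ A : Finset ℕ, A ⊆ Finset.range h →
        ∑ a ∈ A, (Wn p a : ℤ) ≤ ((∑ a ∈ Finset.range h, Wn p a : ℕ) : ℤ) := by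
      intro A hA
      have : ∑ a ∈ A, Wn p a ≤ ∑ a ∈ Finset.range h, Wn p a := Finset.sum_le_sum_of_subset hA
      exact_mod_cast this
    have h4 := hsum A hA
    have h5 := hsum B hB
    have h6 := two_sum_Wn_le p hp3 h
    have h7 : (2 : ℤ) * ((∑ a ∈ Finset.range h, Wn p a : ℕ) : ℤ) ≤ Wn p h := by exact_mod_cast h6
    have h8 : (s : ℤ) ≤ k := by linarith
    have h9 : s ≤ k := by exact_mod_cast h8
    have hAc : A.card ≤ h := by simpa using Finset.card_le_card hA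
    have hBc : B.card ≤ h := by simpa using Finset.card_le_card hB
    obtain ⟨q, rfl⟩ : ∃ q, p = q + 1 := ⟨p - 1, by omega⟩
    rw [Nat.add_sub_cancel] at hs
    have h10 : (2 * q - 1) * k ≥ 2 * q - 1 := Nat.le_mul_of_pos_right _ hk
    have h11 : 2 * q * k = (2 * q - 1) * k + k := by
      obtain ⟨r, hr⟩ : ∃ r, 2 * q = r + 1 := ⟨2 * q - 1, by omega⟩
      rw [hr, Nat.add_sub_cancel]
      ring
    omega

end Vale.Agent.P257.H314
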